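import Vale.Agent.P250.Full.Spec

/-!
Elementary facts about the automorphisms `aut a` of the ball of `ℂ²`.
-/

namespace Vale.Agent.P250.Full.Pinch

open Complex Filter
open scoped ComplexConjugate Topology ContDiff

lemma ip_self (a : Fin 2 → ℂ) : ip a a = (nsq a : ℂ) := by
  simp [ip, nsq, Complex.mul_conj]

lemma conj_ip (z e : Fin 2 → ℂ) : conj (ip z e) = ip e z := by
  simp [ip, mul_comm]

lemma nsq_nonneg (z : Fin 2 → ℂ) : 0 ≤ nsq z :=
  add_nonneg (normSq_nonneg _) (normSq_nonneg _)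

lemma nsq_eq_zero {z : Fin 2 → ℂ} (h : nsq z = 0) : z = 0 := by
  obtain ⟨h0, h1⟩ := (add_eq_zero_iff_of_nonneg (normSq_nonneg _) (normSq_nonneg _)).1 h
  funext i
  fin_cases i
  exacts [normSq_eq_zero.1 h0, normSq_eq_zero.1 h1]

lemma ip_smul_left (c : ℂ) (z e : Fin 2 → ℂ) : ip (c • z) e = c * ip z e := by
  simp [ip]; ring

lemma ip_add_left (z z' e : Fin 2 → ℂ) : ip (z + z') e = ip z e + ip z' e := by
  simp [ip]; ring

lemma nsq_smul (c : ℂ) (z : Fin 2 → ℂ) : nsq (c • z) = normSq c * nsq z := by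
  simp [nsq]; ring

lemma nsq_comb (x y : ℂ) (a z : Fin 2 → ℂ) :
    nsq (x • a + y • z)
      = normSq x * nsq a + normSq y * nsq z + 2 * (x * conj y * ip a z).re := by
  simp [nsq, ip, normSq_apply]; ring

lemma normSq_ip_le (z e : Fin 2 → ℂ) : normSq (ip z e) ≤ nsq z * nsq e := by
  have h : nsq z * nsq e - normSq (ip z e) = normSq (z 0 * e 1 - z 1 * e 0) := by
    simp [nsq, ip, normSq_apply]; ring
  linarith [normSq_nonneg (z 0 * e 1 - z 1 * e 0)]

lemma den_ne {a z : Fin 2 → ℂ} (ha : a ∈ ball2) (hz : z ∈ ball2) : 1 - ip z a ≠ 0 := by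
  intro h
  have h1 : ip z a = 1 := (sub_eq_zero.1 h).symm
  have h2 := normSq_ip_le z a
  rw [h1, map_one] at h2
  have ha' : nsq a < 1 := ha
  have hz' : nsq z < 1 := hz
  nlinarith [nsq_nonneg a, nsq_nonneg z]

lemma sqrt_pos {a : Fin 2 → ℂ} (ha : a ∈ ball2) : 0 < Real.sqrt (1 - nsq a) :=
  Real.sqrt_pos.2 (sub_pos.2 ha)

/-- The defect of `aut a` is multiplicative. -/
lemma one_sub_nsq_aut {a z : Fin 2 → ℂ} (ha : a ∈ ball2) (hz : z ∈ ball2) :
    1 - nsq (aut a z) = (1 - nsq a) * (1 - nsq z) / normSq (1 - ip z a) := by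
  have hd : normSq (1 - ip z a) ≠ 0 := (normSq_pos.2 (den_ne ha hz)).ne'
  obtain ⟨μ, hμ⟩ : ∃ μ, μ = ip z a / ip a a := ⟨_, rfl⟩
  have hμN : μ * (nsq a : ℂ) = ip z a := by
    rcases eq_or_ne (nsq a) 0 with h0 | h0
    · rw [nsq_eq_zero h0]; simp [ip, nsq]
    · rw [hμ, ip_self, div_mul_cancel₀]
      exact_mod_cast h0
  set s : ℝ := Real.sqrt (1 - nsq a) with hs
  have hs2 : s ^ 2 = 1 - nsq a := Real.sq_sqrt (sub_pos.2 ha).le
  have e : aut a z = (1 - ip z a)⁻¹ • ((1 - μ + (s : ℂ) * μ) • a + (-(s : ℂ)) • z) := by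
    rw [aut, ← hμ]
    congr 1
    funext i
    simp [← hs]
    ring
  rw [e, nsq_smul, map_inv₀, nsq_comb, ← conj_ip z a, ← hμN]
  rw [← hμN] at hd
  field_simp
  simp [normSq_apply]
  linear_combination (nsq a * (μ.re ^ 2 + μ.im ^ 2) - nsq z) * hs2

lemma aut_mem {a z : Fin 2 → ℂ} (ha : a ∈ ball2) (hz : z ∈ ball2) : aut a z ∈ ball2 := by
  have h : 0 < 1 - nsq (aut a z) := by
    rw [one_sub_nsq_aut ha hz]
    exact div_pos (mul_pos (sub_pos.2 ha) (sub_pos.2 hz)) (normSq_pos.2 (den_ne ha hz))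
  exact sub_pos.1 h

lemma aut_zero (a : Fin 2 → ℂ) : aut a 0 = a := by
  simp [aut, ip]

lemma differentiable_ip (e : Fin 2 → ℂ) : Differentiable ℂ fun z => ip z e := by
  unfold ip; fun_prop

lemma differentiableAt_aut {a z : Fin 2 → ℂ} (ha : a ∈ ball2) (hz : z ∈ ball2) :
    DifferentiableAt ℂ (aut a) z := by
  have h1 := (differentiable_ip a) z
  unfold aut
  refine DifferentiableAt.fun_smul ?_ ?_
  · exact (h1.const_sub 1).fun_inv (den_ne ha hz)
  · simp only [div_eq_mul_inv]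
    fun_prop

lemma fderiv_aut_zero (a v : Fin 2 → ℂ) :
    fderiv ℂ (aut a) 0 v = ip v a • a - (ip v a / ip a a) • a
      - (Real.sqrt (1 - nsq a) : ℂ) • (v - (ip v a / ip a a) • a) := by
  have hip : ∀ w, HasFDerivAt (fun z => ip z a)
      (conj (a 0) • (ContinuousLinearMap.proj 0 : (Fin 2 → ℂ) →L[ℂ] ℂ)
        + conj (a 1) • ContinuousLinearMap.proj 1) w := fun w => by
    have h := ((hasFDerivAt_apply (𝕜 := ℂ) (0 : Fin 2) w).mul_const (conj (a 0))).add
      ((hasFDerivAt_apply (𝕜 := ℂ) (1 : Fin 2) w).mul_const (conj (a 1)))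
    exact h
  have hP := ((hip 0).mul_const (ip a a)⁻¹).smul_const a
  have hL := (hP.const_sub a).sub (((hasFDerivAt_id (0 : Fin 2 → ℂ)).sub hP).const_smul
    (Real.sqrt (1 - nsq a) : ℂ))
  have hI := (hasFDerivAt_inv (show (1 : ℂ) - ip 0 a ≠ 0 by simp [ip])).comp (0 : Fin 2 → ℂ)
    ((hip 0).const_sub 1)
  have h := hI.smul hL
  have h' := h.fderiv
  have e : (fun y => (Inv.inv ∘ fun z => 1 - ip z a) y •
      ((fun z => a - (ip z a * (ip a a)⁻¹) • a) -
        fun z => (Real.sqrt (1 - nsq a) : ℂ) • (id z - (ip z a * (ip a a)⁻¹) • a)) y) = aut a := by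
    funext z
    simp [aut, div_eq_mul_inv]
  calc fderiv ℂ (aut a) 0 v
      = fderiv ℂ (fun y => (Inv.inv ∘ fun z => 1 - ip z a) y •
      ((fun z => a - (ip z a * (ip a a)⁻¹) • a) -
        fun z => (Real.sqrt (1 - nsq a) : ℂ) • (id z - (ip z a * (ip a a)⁻¹) • a)) y) 0 v := by
        rw [e]
    _ = _ := by
      erw [h']
      simp [ip, div_eq_mul_inv, mul_comm]
      module

lemma injective_fderiv_aut {a : Fin 2 → ℂ} (ha : a ∈ ball2) :
    Function.Injective (fderiv ℂ (aut a) 0) := by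
  rw [injective_iff_map_eq_zero]
  intro v hv
  rw [fderiv_aut_zero] at hv
  have hN : nsq a < 1 := ha
  have hs : (Real.sqrt (1 - nsq a) : ℂ) ≠ 0 := by exact_mod_cast (sqrt_pos ha).ne'
  set c := ip v a with hc
  have hc0 : c = 0 := by
    rcases eq_or_ne (nsq a) 0 with h0 | h0
    · rw [hc, nsq_eq_zero h0]; simp [ip]
    · have h0' : (nsq a : ℂ) ≠ 0 := by exact_mod_cast h0
      have h := congrArg (fun w => ip w a) hv
      simp only [sub_eq_add_neg, ip_add_left, ← neg_smul, ip_smul_left, ← hc, ip_self] at h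
      rw [show ip (0 : Fin 2 → ℂ) a = 0 by simp [ip]] at h
      field_simp at h
      have h1 : c * ((nsq a : ℂ) - 1) = 0 := by linear_combination h
      refine (mul_eq_zero.1 h1).resolve_right (sub_ne_zero.2 ?_)
      exact_mod_cast hN.ne
  rw [hc0] at hv
  simp only [zero_div, zero_smul, sub_zero, zero_sub, neg_eq_zero, smul_eq_zero] at hv
  exact hv.resolve_left hs

end Vale.Agent.P250.Full.Pinch
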