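import Vale.Agent.P250.Full.Pinch.Jet
import Vale.Agent.P274.Full.Patch.Smooth

/-!
Chain rules for Wirtinger derivatives along holomorphic maps, and naturality of `curv`
under local equality of metrics.
-/

namespace Vale.Agent.P250.Full.Pinch

open Complex Filter
open scoped ComplexConjugate Topology ContDiff

variable {n : ℕ}

/-- The real differential split into its complex linear and antilinear parts. -/
lemma fderiv_split (f : (Fin 2 → ℂ) → ℂ) (z v : Fin 2 → ℂ) :
    fderiv ℝ f z v = ∑ a, (wd a f z * v a + wdb a f z * conj (v a)) := by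
  have hv : v = ∑ a : Fin 2, ((v a).re • (Pi.single a 1 : Fin 2 → ℂ)
      + (v a).im • (Pi.single a I : Fin 2 → ℂ)) := by
    funext i; fin_cases i <;> (apply Complex.ext <;> simp [Fin.sum_univ_two])
  conv_lhs => rw [hv]
  simp only [map_sum, map_add, map_smul]
  refine Finset.sum_congr rfl fun a _ => ?_
  simp only [wd, wdb, Complex.real_smul]
  conv_rhs => rw [← re_add_im (v a)]
  simp only [map_add, map_mul, conj_ofReal, conj_I]
  linear_combination
    ((v a).im : ℂ) * fderiv ℝ f z (Pi.single a I) * Complex.I_sq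

variable {K : (Fin n → ℂ) → Fin 2 → ℂ} {f : (Fin 2 → ℂ) → ℂ} {p : Fin n → ℂ}

/-- The derivative of the `a`-th component in direction `i`. -/
noncomputable def pd (K : (Fin n → ℂ) → Fin 2 → ℂ) (a : Fin 2) (i : Fin n) (p : Fin n → ℂ) : ℂ :=
  fderiv ℂ K p (Pi.single i 1) a

lemma fderiv_comp_hol (hf : DifferentiableAt ℝ f (K p)) (hK : DifferentiableAt ℂ K p)
    (i : Fin n) (c : ℂ) :
    fderiv ℝ (fun q => f (K q)) p (Pi.single i c)
      = ∑ a, (wd a f (K p) * (c * pd K a i p) + wdb a f (K p) * (conj c * conj (pd K a i p))) := by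
  have h : fderiv ℝ (fun q => f (K q)) p
      = (fderiv ℝ f (K p)).comp ((fderiv ℂ K p).restrictScalars ℝ) :=
    (hf.hasFDerivAt.comp p (hK.hasFDerivAt.restrictScalars ℝ)).fderiv
  rw [h, ContinuousLinearMap.comp_apply, ContinuousLinearMap.coe_restrictScalars',
    fderiv_split]
  have e : (Pi.single i c : Fin n → ℂ) = c • Pi.single i 1 := by
    rw [← Pi.single_smul', smul_eq_mul, mul_one]
  simp [e, pd]

lemma wd_comp_hol (hf : DifferentiableAt ℝ f (K p)) (hK : DifferentiableAt ℂ K p) (i : Fin n) :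
    wd i (fun q => f (K q)) p = ∑ a, wd a f (K p) * pd K a i p := by
  conv_lhs => rw [wd]
  simp only [fderiv_comp_hol hf hK, conj_I, map_one, Fin.sum_univ_two, one_mul]
  linear_combination
    ((wdb 0 f (K p) * conj (pd K 0 i p) + wdb 1 f (K p) * conj (pd K 1 i p)
      - wd 0 f (K p) * pd K 0 i p - wd 1 f (K p) * pd K 1 i p) / 2) * Complex.I_sq

lemma wdb_comp_hol (hf : DifferentiableAt ℝ f (K p)) (hK : DifferentiableAt ℂ K p) (i : Fin n) :
    wdb i (fun q => f (K q)) p = ∑ a, wdb a f (K p) * conj (pd K a i p) := by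
  conv_lhs => rw [wdb]
  simp only [fderiv_comp_hol hf hK, conj_I, map_one, Fin.sum_univ_two, one_mul]
  linear_combination
    ((wd 0 f (K p) * pd K 0 i p + wd 1 f (K p) * pd K 1 i p
      - wdb 0 f (K p) * conj (pd K 0 i p) - wdb 1 f (K p) * conj (pd K 1 i p)) / 2) * Complex.I_sq

lemma differentiableAt_pd {S : Set (Fin n → ℂ)} (hS : IsOpen S) (hK : DifferentiableOn ℂ K S)
    {q : Fin n → ℂ} (hq : q ∈ S) (a : Fin 2) (i : Fin n) :
    DifferentiableAt ℂ (pd K a i) q :=
  differentiableAt_pi.1 ((P274.Full.PatchAux.differentiableOn_fderiv_apply hS hK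
    (Pi.single i 1)).differentiableAt (hS.mem_nhds hq)) a

/-- The Levi form of a composite with a holomorphic map. -/
lemma lev_comp {W : (Fin 2 → ℂ) → ℝ} {K : (Fin 2 → ℂ) → Fin 2 → ℂ} {S : Set (Fin 2 → ℂ)}
    (hS : IsOpen S) (hK : DifferentiableOn ℂ K S) {z : Fin 2 → ℂ} (hz : z ∈ S)
    (hW : ContDiffAt ℝ 2 W (K z)) (a b : Fin 2) :
    lev (fun q => W (K q)) a b z
      = ∑ i, ∑ j, lev W i j (K z) * pd K i a z * conj (pd K j b z) := by
  have hKd : DifferentiableAt ℂ K z := hK.differentiableAt (hS.mem_nhds hz)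
  have hWc := Calc.contDiffAt_ofReal hW
  have hev : (fun q => wdb b (fun q' => (W (K q') : ℂ)) q) =ᶠ[𝓝 z]
      fun q => ∑ j, wdb j (fun x => (W x : ℂ)) (K q) * conj (pd K j b q) := by
    filter_upwards [hS.mem_nhds hz,
      hKd.continuousAt.tendsto.eventually (eventually_diffAt hWc)] with q hq hq'
    exact wdb_comp_hol (f := fun x => (W x : ℂ)) hq' (hK.differentiableAt (hS.mem_nhds hq)) b
  have hg : ∀ j, DifferentiableAt ℝ (fun q => wdb j (fun x => (W x : ℂ)) (K q)) z := fun j =>
    (Calc.differentiableAt_wdb hWc j).comp z (hKd.restrictScalars ℝ)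
  have hp : ∀ j, DifferentiableAt ℝ (fun q => conj (pd K j b q)) z := fun j =>
    Calc.differentiableAt_conj ((differentiableAt_pd hS hK hz j b).restrictScalars ℝ)
  rw [lev, Calc.wd_congr hev]
  simp only [Fin.sum_univ_two]
  rw [Calc.wd_add ((hg 0).fun_mul (hp 0)) ((hg 1).fun_mul (hp 1))]
  have hterm : ∀ j, wd a (fun q => wdb j (fun x => (W x : ℂ)) (K q) * conj (pd K j b q)) z
      = (∑ i, lev W i j (K z) * pd K i a z) * conj (pd K j b z) := fun j => by
    rw [Calc.wd_mul (hg j) (hp j),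
      Calc.wd_conj ((differentiableAt_pd hS hK hz j b).restrictScalars ℝ),
      Calc.wdb_hol (differentiableAt_pd hS hK hz j b),
      wd_comp_hol (Calc.differentiableAt_wdb hWc j) hKd]
    simp [lev]
  rw [hterm 0, hterm 1]
  simp only [Fin.sum_univ_two]
  ring

section congr

variable {g g' : (Fin n → ℂ) → Matrix (Fin n) (Fin n) ℂ}

lemma eventually_chr_eq (h : g =ᶠ[𝓝 p] g') :
    ∀ᶠ q in 𝓝 p, ∀ X Y W : Fin n → ℂ, chr g q X Y W = chr g' q X Y W := by
  filter_upwards [h.eventuallyEq_nhds] with q hq X Y W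
  have e : ∀ U V, (fun r => rMet g r U V) =ᶠ[𝓝 q] fun r => rMet g' r U V := fun U V =>
    hq.mono fun r hr => by simp only [rMet, hr]
  simp only [chr, (e _ _).fderiv_eq]

/-- `curv` depends only on the germ of the metric. -/
lemma curv_congr (h : g =ᶠ[𝓝 p] g') (X Y Z W : Fin n → ℂ) :
    curv g p X Y Z W = curv g' p X Y Z W := by
  have hc := eventually_chr_eq h
  have e : ∀ U V T, (fun q => chr g q U V T) =ᶠ[𝓝 p] fun q => chr g' q U V T := fun U V T =>
    hc.mono fun q hq => hq U V T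
  have hp : g p = g' p := h.self_of_nhds
  have hchr : ∀ U V, chr g p U V = chr g' p U V := fun U V => funext (hc.self_of_nhds U V)
  simp only [curv, (e _ _ _).fderiv_eq, rMet, sharp, hp, hchr]

end congr

end Vale.Agent.P250.Full.Pinch
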