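import Vale.Agent.P250.Full.Calc

/-!
Second order jets for Wirtinger calculus: value, `∂`, `∂̄` and `∂ ∂̄` at a point.
-/

namespace Vale.Agent.P250.Full.Pinch

open Complex Filter
open scoped ComplexConjugate Topology ContDiff

variable {n : ℕ}

/-- `∂` and `∂̄` commute on functions that are twice differentiable. -/
theorem wd_wdb_comm {f : (Fin n → ℂ) → ℂ} {p : Fin n → ℂ} (hf : ContDiffAt ℝ 2 f p)
    (k l : Fin n) : wd k (wdb l f) p = wdb l (wd k f) p := by
  have h : DifferentiableAt ℝ (fderiv ℝ f) p :=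
    (hf.fderiv_right (m := 1) (by norm_num)).differentiableAt (by norm_num)
  have hsymm := hf.isSymmSndFDerivAt (by simp)
  have hd : ∀ v : Fin n → ℂ, HasFDerivAt (fun q => fderiv ℝ f q v)
      ((fderiv ℝ (fderiv ℝ f) p).flip v) p := fun v => by
    refine (h.hasFDerivAt.clm_apply (hasFDerivAt_const v p)).congr_fderiv ?_
    simp
  have ha : HasFDerivAt (wdb l f)
      ((2 : ℂ)⁻¹ • ((fderiv ℝ (fderiv ℝ f) p).flip (Pi.single l 1)
        + I • (fderiv ℝ (fderiv ℝ f) p).flip (Pi.single l I))) p := by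
    unfold wdb
    simpa [div_eq_inv_mul] using
      ((hd (Pi.single l 1)).add ((hd (Pi.single l I)).const_mul I)).const_mul (2 : ℂ)⁻¹
  have hb : HasFDerivAt (wd k f)
      ((2 : ℂ)⁻¹ • ((fderiv ℝ (fderiv ℝ f) p).flip (Pi.single k 1)
        - I • (fderiv ℝ (fderiv ℝ f) p).flip (Pi.single k I))) p := by
    unfold wd
    simpa [div_eq_inv_mul] using
      ((hd (Pi.single k 1)).sub ((hd (Pi.single k I)).const_mul I)).const_mul (2 : ℂ)⁻¹
  conv_lhs => rw [wd, ha.fderiv]
  conv_rhs => rw [wdb, hb.fderiv]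
  simp only [smul_apply, add_apply, sub_apply, ContinuousLinearMap.flip_apply, smul_eq_mul,
    hsymm (Pi.single k 1) (Pi.single l 1), hsymm (Pi.single k 1) (Pi.single l I),
    hsymm (Pi.single k I) (Pi.single l 1), hsymm (Pi.single k I) (Pi.single l I)]
  ring

theorem differentiableAt_wd {f : (Fin n → ℂ) → ℂ} {p : Fin n → ℂ} (hf : ContDiffAt ℝ 2 f p)
    (i : Fin n) : DifferentiableAt ℝ (wd i f) p := by
  have h : DifferentiableAt ℝ (fderiv ℝ f) p :=
    (hf.fderiv_right (m := 1) (by norm_num)).differentiableAt (by norm_num)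
  have h1 : DifferentiableAt ℝ (fun q => fderiv ℝ f q (Pi.single i 1)) p :=
    h.clm_apply (differentiableAt_const _)
  have h2 : DifferentiableAt ℝ (fun q => fderiv ℝ f q (Pi.single i I)) p :=
    h.clm_apply (differentiableAt_const _)
  unfold wd
  simp only [div_eq_mul_inv]
  fun_prop

theorem eventually_diffAt {f : (Fin n → ℂ) → ℂ} {p : Fin n → ℂ} (hf : ContDiffAt ℝ 2 f p) :
    ∀ᶠ q in 𝓝 p, DifferentiableAt ℝ f q :=
  (hf.eventually (by simp)).mono fun _ h => h.differentiableAt (by norm_num)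

/-- `f` has value `v`, derivatives `d`, `db` and mixed second derivative `D` at `p`. -/
structure J2 (f : (Fin n → ℂ) → ℂ) (p : Fin n → ℂ) (v : ℂ) (d db : Fin n → ℂ)
    (D : Fin n → Fin n → ℂ) : Prop where
  smooth : ContDiffAt ℝ 2 f p
  val : f p = v
  hd : ∀ k, wd k f p = d k
  hdb : ∀ l, wdb l f p = db l
  hD : ∀ k l, wd k (wdb l f) p = D k l

variable {f g : (Fin n → ℂ) → ℂ} {p : Fin n → ℂ} {a b : ℂ} {d d' e e' : Fin n → ℂ}
  {D E : Fin n → Fin n → ℂ}

theorem J2.of_smooth (hf : ContDiffAt ℝ 2 f p) :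
    J2 f p (f p) (fun k => wd k f p) (fun l => wdb l f p) (fun k l => wd k (wdb l f) p) :=
  ⟨hf, rfl, fun _ => rfl, fun _ => rfl, fun _ _ => rfl⟩

theorem J2.const (c : ℂ) (p : Fin n → ℂ) : J2 (fun _ => c) p c 0 0 0 := by
  refine ⟨contDiffAt_const, rfl, fun k => Calc.wd_const c k, fun l => Calc.wdb_const c l,
    fun k l => ?_⟩
  have h : wdb l (fun _ : Fin n → ℂ => c) = fun _ => 0 := funext fun q => Calc.wdb_const c l
  rw [h, Calc.wd_const]; rfl

theorem J2.add (hf : J2 f p a d e D) (hg : J2 g p b d' e' E) :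
    J2 (fun q => f q + g q) p (a + b) (d + d') (e + e') (D + E) := by
  have hfd := hf.smooth.differentiableAt (by norm_num)
  have hgd := hg.smooth.differentiableAt (by norm_num)
  refine ⟨hf.smooth.add hg.smooth, by rw [hf.val, hg.val],
    fun k => by rw [Calc.wd_add hfd hgd, hf.hd, hg.hd]; rfl,
    fun l => by rw [Calc.wdb_add hfd hgd, hf.hdb, hg.hdb]; rfl, fun k l => ?_⟩
  have hev : wdb l (fun q => f q + g q) =ᶠ[𝓝 p] fun q => wdb l f q + wdb l g q := by
    filter_upwards [eventually_diffAt hf.smooth, eventually_diffAt hg.smooth] with q h1 h2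
    exact Calc.wdb_add h1 h2 l
  rw [Calc.wd_congr hev, Calc.wd_add (Calc.differentiableAt_wdb hf.smooth l)
    (Calc.differentiableAt_wdb hg.smooth l), hf.hD, hg.hD]
  rfl

theorem J2.mul (hf : J2 f p a d e D) (hg : J2 g p b d' e' E) :
    J2 (fun q => f q * g q) p (a * b) (fun k => d k * b + a * d' k)
      (fun l => e l * b + a * e' l)
      (fun k l => D k l * b + e l * d' k + d k * e' l + a * E k l) := by
  have hfd := hf.smooth.differentiableAt (by norm_num)
  have hgd := hg.smooth.differentiableAt (by norm_num)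
  refine ⟨hf.smooth.mul hg.smooth, by rw [hf.val, hg.val],
    fun k => by rw [Calc.wd_mul hfd hgd, hf.hd, hg.hd, hf.val, hg.val],
    fun l => by rw [Calc.wdb_mul hfd hgd, hf.hdb, hg.hdb, hf.val, hg.val], fun k l => ?_⟩
  have hev : wdb l (fun q => f q * g q) =ᶠ[𝓝 p] fun q => wdb l f q * g q + f q * wdb l g q := by
    filter_upwards [eventually_diffAt hf.smooth, eventually_diffAt hg.smooth] with q h1 h2
    exact Calc.wdb_mul h1 h2 l
  have h1 := Calc.differentiableAt_wdb hf.smooth l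
  have h2 := Calc.differentiableAt_wdb hg.smooth l
  rw [Calc.wd_congr hev, Calc.wd_add (h1.fun_mul hgd) (hfd.fun_mul h2), Calc.wd_mul h1 hgd,
    Calc.wd_mul hfd h2, hf.hD, hg.hD, hf.hd, hg.hd, hf.hdb, hg.hdb, hf.val, hg.val]
  ring

theorem J2.const_mul (c : ℂ) (hg : J2 g p b d' e' E) :
    J2 (fun q => c * g q) p (c * b) (fun k => c * d' k) (fun l => c * e' l)
      (fun k l => c * E k l) := by
  simpa using (J2.const c p).mul hg

theorem J2.conj (hf : J2 f p a d e D) :
    J2 (fun q => conj (f q)) p (conj a) (fun k => conj (e k)) (fun l => conj (d l))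
      (fun k l => conj (D l k)) := by
  have hfd := hf.smooth.differentiableAt (by norm_num)
  refine ⟨Complex.conjCLE.contDiff.contDiffAt.comp p hf.smooth, by rw [hf.val],
    fun k => by rw [Calc.wd_conj hfd, hf.hdb], fun l => by rw [Calc.wdb_conj hfd, hf.hd],
    fun k l => ?_⟩
  have hev : wdb l (fun q => Complex.conjCLE (f q)) =ᶠ[𝓝 p]
      fun q => Complex.conjCLE (wd l f q) := by
    filter_upwards [eventually_diffAt hf.smooth] with q h1
    exact Calc.wdb_conj h1 l
  simp only [Complex.conjCLE_apply] at hev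
  rw [Calc.wd_congr hev, Calc.wd_conj (differentiableAt_wd hf.smooth l),
    ← wd_wdb_comm hf.smooth, hf.hD]

theorem J2.congr_val (hf : J2 f p a d e D) {a' : ℂ} {d₁ e₁ : Fin n → ℂ}
    {D₁ : Fin n → Fin n → ℂ} (h0 : a = a') (h1 : ∀ k, d k = d₁ k) (h2 : ∀ l, e l = e₁ l)
    (h3 : ∀ k l, D k l = D₁ k l) : J2 f p a' d₁ e₁ D₁ :=
  ⟨hf.smooth, hf.val.trans h0, fun k => (hf.hd k).trans (h1 k), fun l => (hf.hdb l).trans (h2 l),
    fun k l => (hf.hD k l).trans (h3 k l)⟩

/-- Composition of a real function with a real jet. -/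
theorem J2.comp_real {u : (Fin n → ℂ) → ℝ} {r : ℝ}
    (hu : J2 (fun q => (u q : ℂ)) p (r : ℂ) d e D) {P P' : ℝ → ℝ} {P'' : ℝ}
    (hPs : ContDiffAt ℝ 2 P r) (hP : ∀ᶠ y in 𝓝 r, HasDerivAt P (P' y) y)
    (hP' : HasDerivAt P' P'' r) :
    J2 (fun q => (P (u q) : ℂ)) p (P r : ℂ) (fun k => (P' r : ℂ) * d k)
      (fun l => (P' r : ℂ) * e l)
      (fun k l => (P'' : ℂ) * d k * e l + (P' r : ℂ) * D k l) := by
  have hur : u p = r := by exact_mod_cast hu.val
  have hus : ContDiffAt ℝ 2 u p := Complex.reCLM.contDiff.contDiffAt.comp p hu.smooth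
  have hud : DifferentiableAt ℝ u p := hus.differentiableAt (by norm_num)
  have hPr : HasDerivAt P (P' r) (u p) := by rw [hur]; exact hP.self_of_nhds
  refine ⟨Calc.contDiffAt_ofReal ((hur.symm ▸ hPs : ContDiffAt ℝ 2 P (u p)).comp p hus),
    by rw [hur], fun k => by rw [Calc.wd_comp hud hPr, hu.hd],
    fun l => by rw [Calc.wdb_comp hud hPr, hu.hdb], fun k l => ?_⟩
  have hev : wdb l (fun q => (P (u q) : ℂ)) =ᶠ[𝓝 p]
      fun q => (P' (u q) : ℂ) * wdb l (fun q' => (u q' : ℂ)) q := by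
    have h1 : ∀ᶠ q in 𝓝 p, HasDerivAt P (P' (u q)) (u q) :=
      (hud.continuousAt.tendsto.mono_right (by rw [hur])).eventually hP
    filter_upwards [h1, (hus.eventually (by simp))] with q hq hq'
    exact Calc.wdb_comp (hq'.differentiableAt (by norm_num)) hq l
  have hP'' : HasDerivAt P' P'' (u p) := by rwa [hur]
  have hd1 : DifferentiableAt ℝ (fun q => (P' (u q) : ℂ)) p :=
    Calc.differentiableAt_ofReal (hP''.differentiableAt.comp p hud)
  rw [Calc.wd_congr hev, Calc.wd_mul hd1 (Calc.differentiableAt_wdb hu.smooth l),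
    Calc.wd_comp hud hP'', hu.hd, hu.hdb, hu.hD, hur]

end Vale.Agent.P250.Full.Pinch
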