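import Vale.Agent.P250.Full.Pinch.Point

/-!
The curvature tensor of the metric at a normalised point.
-/

namespace Vale.Agent.P250.Full.Pinch

open Complex Filter
open scoped ComplexConjugate Topology ContDiff

@[simp] lemma part_cast (a : Fin 2) : part a.castSucc = some a := by simp [part]

@[simp] lemma part_two : part 2 = none := rfl

@[simp] lemma gdiag_cast (A : ℝ) (θ : Fin 2 → ℝ) (w : ℂ) (a : Fin 2) :
    gdiag A θ w a.castSucc = A + tauc w * θ a := by simp [gdiag]

@[simp] lemma gdiag_two (A : ℝ) (θ : Fin 2 → ℝ) (w : ℂ) : gdiag A θ w 2 = scal w ^ 2 := rfl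

lemma sum_fin3 {M : Type*} [AddCommMonoid M] (f : Fin 3 → M) :
    ∑ i, f i = (∑ a : Fin 2, f a.castSucc) + f 2 := Fin.sum_univ_castSucc f

variable {W : (Fin 2 → ℂ) → ℝ} {lam : Fin 2 → ℝ} {p : Fin 3 → ℂ}

section point

variable (h : Normalised W lam) (hz : zc p = 0) (hx : normSq (p 2) < 1) {A : ℝ}
include h hz hx

lemma met_diag : met A W p = Matrix.diagonal fun i => (gdiag A lam (p 2) i : ℂ) := by
  have hcc := fun a b => (j2_met_cc h hz hx A a b).val
  have hct := fun a => (j2_met_ct h hz hx A a).val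
  have htc := fun b => (j2_met_tc h hz hx A b).val
  have htt := (j2_met_tt h hz hx A).val
  ext i j
  revert i j
  refine forall_fin3 (fun a => forall_fin3 (fun b => ?_) ?_) (forall_fin3 (fun b => ?_) ?_)
  · rw [show met A W p a.castSucc b.castSucc = _ from hcc a b, Matrix.diagonal_apply]
    rcases eq_or_ne a b with rfl | hab
    · simp [dg, tauc, div_eq_mul_inv]
    · simp [dg, hab]
  · rw [show met A W p a.castSucc 2 = _ from hct a, Matrix.diagonal_apply_ne]
    fin_cases a <;> decide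
  · rw [show met A W p 2 b.castSucc = _ from htc b, Matrix.diagonal_apply_ne]
    fin_cases b <;> decide
  · rw [show met A W p 2 2 = _ from htt, Matrix.diagonal_apply_eq]
    simp [scal]

lemma gdiag_pos (hA : 0 < A) (hl : ∀ a, 0 ≤ lam a) (i : Fin 3) : 0 < gdiag A lam (p 2) i := by
  have hs : 0 < 1 - normSq (p 2) := sub_pos.2 hx
  have ht : 0 ≤ tauc (p 2) := div_nonneg (normSq_nonneg _) hs.le
  revert i
  refine forall_fin3 (fun a => ?_) ?_
  · rw [gdiag_cast]; exact lt_add_of_pos_of_le hA (mul_nonneg ht (hl a))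
  · rw [gdiag_two, scal]; positivity
where
  lt_add_of_pos_of_le {a b : ℝ} (ha : 0 < a) (hb : 0 ≤ b) : 0 < a + b := by linarith

lemma met_inv (hA : 0 < A) (hl : ∀ a, 0 ≤ lam a) :
    (met A W p)⁻¹ = Matrix.diagonal fun i => ((gdiag A lam (p 2) i : ℂ))⁻¹ := by
  refine Matrix.inv_eq_right_inv ?_
  rw [met_diag h hz hx, Matrix.diagonal_mul_diagonal, ← Matrix.diagonal_one]
  congr 1
  funext i
  exact mul_inv_cancel₀ (Complex.ofReal_ne_zero.2 (gdiag_pos h hz hx hA hl i).ne')

/-- The tensor of `KahlerCurvStmt` at a normalised point is `tens`. -/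
theorem tensor_eq (hA : 0 < A) (hl : ∀ a, 0 ≤ lam a) (i j k l : Fin 3) :
    wd k (fun q => wdb l (fun q' => met A W q' i j) q) p
        - ∑ r, ∑ s, wd k (fun q => met A W q i r) p * (met A W p)⁻¹ r s
            * wdb l (fun q => met A W q s j) p
      = tens A lam (tT W) (tF W) (p 2) i j k l := by
  rw [met_inv h hz hx hA hl]
  have hne : ∀ i, (gdiag A lam (p 2) i : ℂ) ≠ 0 := fun i =>
    Complex.ofReal_ne_zero.2 (gdiag_pos h hz hx hA hl i).ne'
  simp only [Matrix.diagonal_apply, mul_ite, mul_zero, ite_mul, zero_mul,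
    Finset.sum_ite_eq, Finset.mem_univ, if_true]
  rw [sum_fin3]
  have hxx : (normSq (p 2) : ℂ) = p 2 * conj (p 2) := (Complex.mul_conj _).symm
  have hxs : ((1 : ℂ) - p 2 * conj (p 2)) ≠ 0 := by
    rw [← hxx]; exact_mod_cast (sub_pos.2 hx).ne'
  have hcc := fun a b => j2_met_cc h hz hx A a b
  have hct := fun a => j2_met_ct h hz hx A a
  have htc := fun b => j2_met_tc h hz hx A b
  have htt := j2_met_tt h hz hx A
  have hG : ∀ a, ((A + tauc (p 2) * lam a : ℝ) : ℂ) ≠ 0 := fun a => by
    rw [← gdiag_cast]; exact hne a.castSucc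
  have hG0 := hG 0
  have hG1 := hG 1
  have hs : (1 : ℝ) + normSq (p 2) * (1 - normSq (p 2))⁻¹ = (1 - normSq (p 2))⁻¹ := by
    linear_combination -mul_inv_cancel₀ (sub_pos.2 hx).ne'
  have hS : ((1 - normSq (p 2) : ℝ) : ℂ) ≠ 0 := by exact_mod_cast (sub_pos.2 hx).ne'
  have hI : ∀ a, (A : ℂ) * ((A + tauc (p 2) * lam a : ℝ) : ℂ)⁻¹
      = 1 - ((tauc (p 2) * lam a : ℝ) : ℂ) * ((A + tauc (p 2) * lam a : ℝ) : ℂ)⁻¹ := by
    intro a
    have h1 := mul_inv_cancel₀ (hG a)
    rw [Complex.ofReal_add] at h1 ⊢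
    linear_combination h1
  revert i j k l
  refine forall_fin3 (fun a => forall_fin3 (fun b => forall_fin3 (fun c => forall_fin3
    (fun d => ?_) ?_) (forall_fin3 (fun d => ?_) ?_)) (forall_fin3 (fun c => forall_fin3
    (fun d => ?_) ?_) (forall_fin3 (fun d => ?_) ?_))) (forall_fin3 (fun b => forall_fin3
    (fun c => forall_fin3 (fun d => ?_) ?_) (forall_fin3 (fun d => ?_) ?_)) (forall_fin3
    (fun c => forall_fin3 (fun d => ?_) ?_) (forall_fin3 (fun d => ?_) ?_))) <;>
  simp only [(hcc _ _).hd, (hcc _ _).hdb, (hcc _ _).hD, (hct _).hd, (hct _).hdb,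
    (hct _).hD, (htc _).hd, (htc _).hdb, (htc _).hD, htt.hd, htt.hdb, htt.hD, v3_cast, v3_two,
    m3_cast_cast, m3_cast_two, m3_two_cast, m3_two_two, Pi.zero_apply, tens, part_cast, part_two,
    gdiag_cast, gdiag_two, baseT, cubT, mixT, dd, dg]
  all_goals simp only [mul_ite, ite_mul, mul_zero, zero_mul, add_zero, zero_add, sub_zero,
    Finset.sum_ite_eq, Finset.sum_ite_eq', Finset.mem_univ, if_true, Finset.sum_const_zero,
    apply_ite (starRingEnd ℂ), map_mul, map_div₀, map_zero, Complex.conj_ofReal, div_eq_mul_inv,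
    tauc, scal, one_mul, map_inv₀]
  all_goals clear hcc hct htc htt
  all_goals try simp only [hs]
  all_goals simp only [tauc, div_eq_mul_inv] at hI
  all_goals generalize hsd : (1 - normSq (p 2))⁻¹ = s at *
  case refine_1 =>
    rw [Finset.mul_sum]
    congr 1
    · fin_cases a <;> fin_cases b <;> fin_cases c <;> fin_cases d <;> simp <;> ring
    · refine Finset.sum_congr rfl fun r _ => ?_
      push_cast
      ring
  case refine_2 =>
    have h1 := hI b
    push_cast at h1 ⊢
    linear_combination (-((s : ℂ) ^ 2 * p 2 * tT W a b c)) * h1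
  case refine_3 =>
    have h1 := hI a
    push_cast at h1 ⊢
    linear_combination
      (-((s : ℂ) ^ 2 * conj (p 2) * conj (tT W b a d))) * h1
  case refine_5 =>
    have h1 := hI d
    push_cast at h1 ⊢
    linear_combination (-((s : ℂ) ^ 2 * p 2 * tT W a d c)) * h1
  case refine_9 =>
    have h1 := hI c
    push_cast at h1 ⊢
    linear_combination
      (-((s : ℂ) ^ 2 * conj (p 2) * conj (tT W b c d))) * h1
  case refine_16 =>
    have hs0 : (s : ℂ) ≠ 0 := by
      rw [← hsd]; exact_mod_cast inv_ne_zero (sub_pos.2 hx).ne'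
    push_cast
    simp only [hxx]
    field_simp
    ring
  all_goals split_ifs <;> simp_all <;> ring

/-- The curvature at a normalised point is `curvForm`. -/
theorem curv_point (hK : KahlerCurvStmt) (hA : 0 < A) (hl : ∀ a, 0 ≤ lam a)
    (hopen : IsOpen (dom W)) (hg : IsKahlerMetric (dom W) (met A W)) (hp : p ∈ dom W)
    (X Y : Fin 3 → ℂ) :
    curv (met A W) p X Y Y X = curvForm A lam (tT W) (tF W) (p 2) X Y := by
  rw [hK (dom W) (met A W) hopen hg p hp X Y, curvForm]
  simp only [tensor_eq h hz hx hA hl, wedge]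

/-- The area at a normalised point. -/
theorem area_point (X Y : Fin 3 → ℂ) :
    area (met A W) p X Y = diagArea (gdiag A lam (p 2)) X Y := by
  have hd : ∀ U V : Fin 3 → ℂ, rMet (met A W) p U V
      = (∑ i, (gdiag A lam (p 2) i : ℂ) * U i * conj (V i)).re := fun U V => by
    rw [rMet, met_diag h hz hx]
    congr 1
    simp [Matrix.diagonal_apply, ite_mul]
  have hn : ∀ U : Fin 3 → ℂ, rMet (met A W) p U U
      = ∑ i, gdiag A lam (p 2) i * normSq (U i) := fun U => by
    rw [hd, Complex.re_sum]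
    refine Finset.sum_congr rfl fun i _ => ?_
    rw [mul_assoc, Complex.mul_conj, ← Complex.ofReal_mul, Complex.ofReal_re]
  rw [area, hn, hn, hd, diagArea]

end point

end Vale.Agent.P250.Full.Pinch
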