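import Vale.Agent.P250.Full.Pinch.Rot
import Vale.Agent.P250.Full.Pinch.Tensor
import Vale.Agent.P250.Full.Geometry.Chain
import Vale.Agent.P250.Full.Model

/-!
Normal form of the weight at a point, and the pullback of the metric.
-/

namespace Vale.Agent.P250.Full.Pinch

open Complex Filter Matrix
open scoped ComplexConjugate Topology ContDiff

variable {W V : (Fin 2 → ℂ) → ℝ} {a z : Fin 2 → ℂ} {Q : Matrix (Fin 2) (Fin 2) ℂ}

/-- An automorphism preceded by a unitary frame. -/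
noncomputable def nm (a : Fin 2 → ℂ) (Q : Matrix (Fin 2) (Fin 2) ℂ) (z : Fin 2 → ℂ) : Fin 2 → ℂ :=
  aut a (rot Q z)

lemma rot_mem (hQ : IsFrame Q) (hz : z ∈ ball2) : rot Q z ∈ ball2 := by
  show nsq (rot Q z) < 1
  rw [nsq_rot hQ]; exact hz

lemma nm_mem (ha : a ∈ ball2) (hQ : IsFrame Q) (hz : z ∈ ball2) : nm a Q z ∈ ball2 :=
  aut_mem ha (rot_mem hQ hz)

lemma nm_zero : nm a Q 0 = a := by rw [nm, map_zero, aut_zero]

lemma differentiableOn_nm (ha : a ∈ ball2) (hQ : IsFrame Q) :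
    DifferentiableOn ℂ (nm a Q) ball2 := fun _ hz =>
  ((differentiableAt_aut ha (rot_mem hQ hz)).comp _
    (rot Q).differentiableAt).differentiableWithinAt

/-- The Jacobian of `nm a Q`. -/
noncomputable def jacK (K : (Fin 2 → ℂ) → Fin 2 → ℂ) (z : Fin 2 → ℂ) : Matrix (Fin 2) (Fin 2) ℂ :=
  Matrix.of fun i j => pd K i j z

lemma fderiv_eq_jacK (K : (Fin 2 → ℂ) → Fin 2 → ℂ) (z v : Fin 2 → ℂ) :
    fderiv ℂ K z v = jacK K z *ᵥ v := by
  have hv : v = v 0 • (Pi.single 0 1 : Fin 2 → ℂ) + v 1 • (Pi.single 1 1 : Fin 2 → ℂ) := by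
    funext i; fin_cases i <;> simp
  funext i
  conv_lhs => rw [hv]
  simp [jacK, pd, Matrix.mulVec, dotProduct, Fin.sum_univ_two, mul_comm]

lemma det_nm_zero (ha : a ∈ ball2) (hQ : IsFrame Q) : (jacK (nm a Q) 0).det ≠ 0 := by
  have h0 : (0 : Fin 2 → ℂ) ∈ ball2 := zero_mem_ball2
  have hd : fderiv ℂ (nm a Q) 0 = (fderiv ℂ (aut a) 0).comp (rot Q) := by
    have h : HasFDerivAt (aut a) (fderiv ℂ (aut a) 0) (rot Q 0) := by
      rw [map_zero]; exact (differentiableAt_aut ha h0).hasFDerivAt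
    exact (h.comp 0 (rot Q).hasFDerivAt).fderiv
  rw [← isUnit_iff_ne_zero, ← Matrix.isUnit_iff_isUnit_det,
    ← Matrix.mulVec_injective_iff_isUnit]
  intro v w hvw
  rw [← fderiv_eq_jacK, ← fderiv_eq_jacK, hd] at hvw
  have h1 := injective_fderiv_aut ha hvw
  have e : rot Q (v - w) = 0 := by rw [map_sub]; exact sub_eq_zero.2 h1
  have h2 : nsq (rot Q (v - w)) = 0 := by rw [e]; simp [nsq]
  rw [nsq_rot hQ] at h2
  exact sub_eq_zero.1 (nsq_eq_zero h2)

lemma contDiffOn_pull (hW : ContDiffOn ℝ ∞ W ball2) (ha : a ∈ ball2) (hQ : IsFrame Q) :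
    ContDiffOn ℝ ∞ (fun z => W (nm a Q z)) ball2 :=
  hW.comp ((contDiffOn_infty.2 fun k => P274.Full.PatchAux.contDiffOn_of_holo 
    isOpen_ball2 (differentiableOn_nm ha hQ) k).restrict_scalars ℝ)
    fun _ hz => nm_mem ha hQ hz

lemma contDiffAt_two (hW : ContDiffOn ℝ ∞ W ball2) (hz : z ∈ ball2) : ContDiffAt ℝ 2 W z :=
  (hW.contDiffAt (isOpen_ball2.mem_nhds hz)).of_le (WithTop.coe_le_coe.2 le_top)

/-- The ball metric is invariant. -/
lemma omb_nm (ha : a ∈ ball2) (hQ : IsFrame Q) (hz : z ∈ ball2) (b c : Fin 2) :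
    ∑ i, ∑ j, omb i j (nm a Q z) * pd (nm a Q) i b z * conj (pd (nm a Q) j c z) = omb b c z := by
  have hlb : ContDiffOn ℝ ∞ lb ball2 := Full.contDiffOn_lb
  have hlba : ContDiffAt ℝ 2 (fun q => lb (aut a q)) (rot Q z) :=
    ((hlb.comp ((contDiffOn_infty.2 fun k => P274.Full.PatchAux.contDiffOn_of_holo
      isOpen_ball2 (Geometry.differentiableOn_aut ha) k).restrict_scalars ℝ)
      fun _ h => aut_mem ha h).contDiffAt (isOpen_ball2.mem_nhds (rot_mem hQ hz))).of_le
        (WithTop.coe_le_coe.2 le_top)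
  have h1 := lev_comp isOpen_ball2 (differentiableOn_nm ha hQ) hz
    (contDiffAt_two hlb (nm_mem ha hQ hz)) b c
  have h2 := lev_comp (W := fun q => lb (aut a q)) (K := rot Q) isOpen_ball2
    (rot Q).differentiable.differentiableOn hz hlba b c
  have h3 := lev_comp (W := lb) (K := rot Q) isOpen_ball2
    (rot Q).differentiable.differentiableOn hz (contDiffAt_two hlb (rot_mem hQ hz)) b c
  simp only [Calc.lev_lb (nm_mem ha hQ hz)] at h1
  simp only [Geometry.lev_lb_aut ha (rot_mem hQ hz)] at h2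
  simp only [Calc.lev_lb (rot_mem hQ hz)] at h3
  rw [← h1]
  change lev (fun q => (fun q' => lb (aut a q')) (rot Q q)) b c z = _
  rw [h2, ← h3, show (fun q => lb (rot Q q)) = lb by funext q; simp [lb, nsq_rot hQ],
    Calc.lev_lb hz]

/-! ### The quadratic gauge -/

/-- Second order holomorphic part of `V` at the origin. -/
noncomputable def c2 (V : (Fin 2 → ℂ) → ℝ) (a k : Fin 2) : ℂ := wd k (d1 V a) 0

/-- The gauge killing the value and the holomorphic derivatives up to order two. -/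
noncomputable def eta (V : (Fin 2 → ℂ) → ℝ) (z : Fin 2 → ℂ) : ℂ :=
  -(V 0 : ℂ) / 2 - d1 V 0 0 * z 0 - d1 V 1 0 * z 1
    - (c2 V 0 0 * z 0 ^ 2 + 2 * c2 V 0 1 * z 0 * z 1 + c2 V 1 1 * z 1 ^ 2) / 2

/-- The partial derivatives of the gauge. -/
noncomputable def deta (V : (Fin 2 → ℂ) → ℝ) (a : Fin 2) (z : Fin 2 → ℂ) : ℂ :=
  -d1 V a 0 - (c2 V a 0 * z 0 + c2 V a 1 * z 1)

/-- The gauged weight. -/
noncomputable def gauged (V : (Fin 2 → ℂ) → ℝ) (z : Fin 2 → ℂ) : ℝ := V z + 2 * (eta V z).re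

lemma c2_comm (hV : ContDiffOn ℝ ∞ V ball2) (a k : Fin 2) : c2 V a k = c2 V k a :=
  wd_wd_comm ((contDiffAt_top hV zero_mem_ball2).of_le (WithTop.coe_le_coe.2 le_top)) k a

lemma differentiable_eta (V : (Fin 2 → ℂ) → ℝ) : Differentiable ℂ (eta V) := by
  unfold eta; fun_prop

lemma fderiv_eta (hV : ContDiffOn ℝ ∞ V ball2) (z : Fin 2 → ℂ) (a : Fin 2) :
    fderiv ℂ (eta V) z (Pi.single a 1) = deta V a z := by
  have h0 := hasFDerivAt_apply (𝕜 := ℂ) (0 : Fin 2) z
  have h1 := hasFDerivAt_apply (𝕜 := ℂ) (1 : Fin 2) z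
  have h : HasFDerivAt (eta V) _ z :=
    (((hasFDerivAt_const (-(V 0 : ℂ) / 2) z).sub (h0.const_mul (d1 V 0 0))).sub
      (h1.const_mul (d1 V 1 0))).sub
      (((((h0.pow 2).const_mul (c2 V 0 0)).add ((h0.const_mul (2 * c2 V 0 1)).mul h1)).add
        ((h1.pow 2).const_mul (c2 V 1 1))).mul_const (2 : ℂ)⁻¹)
  rw [h.fderiv]
  fin_cases a
  · simp [deta]; ring
  · simp [deta, c2_comm hV 1 0]; ring

lemma differentiable_deta (V : (Fin 2 → ℂ) → ℝ) (a : Fin 2) :
    Differentiable ℂ (deta V a) := by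
  unfold deta; fun_prop

lemma contDiffOn_gauged (hV : ContDiffOn ℝ ∞ V ball2) : ContDiffOn ℝ ∞ (gauged V) ball2 := by
  refine hV.add (contDiffOn_const.mul (show ContDiffOn ℝ ∞ (Complex.reCLM ∘ eta V) ball2 from
    Complex.reCLM.contDiff.comp_contDiffOn ?_))
  exact (contDiffOn_infty.2 fun k => P274.Full.PatchAux.contDiffOn_of_holo isOpen_ball2
    (differentiable_eta V).differentiableOn k).restrict_scalars ℝ

lemma ofReal_gauged (V : (Fin 2 → ℂ) → ℝ) :
    (fun q => (gauged V q : ℂ)) = fun q => (V q : ℂ) + (eta V q + conj (eta V q)) := by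
  funext q; simp [gauged, Complex.add_conj]

lemma d1_gauged (hV : ContDiffOn ℝ ∞ V ball2) (hz : z ∈ ball2) (a : Fin 2) :
    d1 (gauged V) a z = d1 V a z + deta V a z := by
  have he : DifferentiableAt ℝ (eta V) z := (differentiable_eta V z).restrictScalars ℝ
  have hVd := (contDiffAt_top hV hz).differentiableAt (by simp)
  rw [d1, ofReal_gauged, Calc.wd_add hVd (he.fun_add (Calc.differentiableAt_conj he)),
    Calc.wd_add he (Calc.differentiableAt_conj he), Calc.wd_conj he,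
    Calc.wdb_hol (differentiable_eta V z), Calc.wd_hol (differentiable_eta V z),
    fderiv_eta hV]
  simp [d1]

lemma lev_gauged (hV : ContDiffOn ℝ ∞ V ball2) (hz : z ∈ ball2) (a b : Fin 2) :
    lev (gauged V) a b z = lev V a b z := by
  rw [← wdb_d1 (contDiffOn_gauged hV) hz, ← wdb_d1 hV hz]
  have hev : d1 (gauged V) a =ᶠ[𝓝 z] fun q => d1 V a q + deta V a q := by
    filter_upwards [isOpen_ball2.mem_nhds hz] with q hq using d1_gauged hV hq a
  have hd' : DifferentiableAt ℝ (d1 V a) z :=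
    (contDiffAt_wd (contDiffAt_top hV hz) a).differentiableAt (by simp)
  rw [Calc.wdb_congr hev, Calc.wdb_add hd' ((differentiable_deta V a z).restrictScalars ℝ),
    Calc.wdb_hol (differentiable_deta V a z), add_zero]

lemma normalised_gauged (hV : ContDiffOn ℝ ∞ V ball2) {lam : Fin 2 → ℝ}
    (hd : ∀ a b, lev V a b 0 = if a = b then (lam a : ℂ) else 0) :
    Normalised (gauged V) lam := by
  refine ⟨contDiffOn_gauged hV, ?_, fun a => ?_, fun a k => ?_, fun a b => ?_⟩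
  · simp [gauged, eta]; ring
  · rw [d1_gauged hV zero_mem_ball2]; simp [deta]
  · have hev : d1 (gauged V) a =ᶠ[𝓝 0] fun q => d1 V a q + deta V a q := by
      filter_upwards [eventually_ball2] with q hq using d1_gauged hV hq a
    have hd' : DifferentiableAt ℝ (d1 V a) 0 :=
      (contDiffAt_wd (contDiffAt_top hV zero_mem_ball2) a).differentiableAt (by simp)
    rw [Calc.wd_congr hev, Calc.wd_add hd' ((differentiable_deta V a 0).restrictScalars ℝ),
      Calc.wd_hol (differentiable_deta V a 0)]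
    have h : HasFDerivAt (deta V a) _ (0 : Fin 2 → ℂ) :=
      (((hasFDerivAt_apply (𝕜 := ℂ) (0 : Fin 2) (0 : Fin 2 → ℂ)).const_mul (c2 V a 0)).add
        ((hasFDerivAt_apply (𝕜 := ℂ) (1 : Fin 2) (0 : Fin 2 → ℂ)).const_mul
          (c2 V a 1))).const_sub (-d1 V a 0)
    rw [h.fderiv]
    fin_cases k <;> simp [c2]
  · rw [lev_gauged hV zero_mem_ball2, hd]

/-! ### The coordinate change -/

/-- The coordinate change of `ℂ³` normalising the weight at `(a, ·)`. -/
noncomputable def hmap (K : (Fin 2 → ℂ) → Fin 2 → ℂ) (η : (Fin 2 → ℂ) → ℂ)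
    (p : Fin 3 → ℂ) : Fin 3 → ℂ :=
  ![K (zc p) 0, K (zc p) 1, p 2 * Complex.exp (η (zc p))]

lemma zc_hmap (K : (Fin 2 → ℂ) → Fin 2 → ℂ) (η : (Fin 2 → ℂ) → ℂ) (p : Fin 3 → ℂ) :
    zc (hmap K η p) = K (zc p) := by
  funext i; fin_cases i <;> simp [zc, hmap]

variable {K : (Fin 2 → ℂ) → Fin 2 → ℂ}

lemma xc_hmap (W : (Fin 2 → ℂ) → ℝ) (p : Fin 3 → ℂ) :
    xc W (hmap K (eta fun z => W (K z)) p) = xc (gauged fun z => W (K z)) p := by
  rw [xc, xc, zc_hmap]
  simp only [gauged, hmap, Matrix.cons_val, map_mul]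
  rw [Real.exp_add, Complex.normSq_eq_norm_sq (Complex.exp _), Complex.norm_exp,
    ← Real.exp_nat_mul]
  push_cast
  ring

lemma hasFDerivAt_zc (p : Fin 3 → ℂ) : HasFDerivAt zc zcL p := by
  have h := zcL.hasFDerivAt (x := p)
  rwa [show ⇑zcL = zc from funext zcL_apply] at h

lemma differentiableAt_hmap {η : (Fin 2 → ℂ) → ℂ} {p : Fin 3 → ℂ}
    (hK : DifferentiableAt ℂ K (zc p)) (hη : DifferentiableAt ℂ η (zc p)) :
    DifferentiableAt ℂ (hmap K η) p := by
  have hz := (hasFDerivAt_zc p).differentiableAt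
  refine differentiableAt_pi.2 fun i => ?_
  fin_cases i
  · exact differentiableAt_pi.1 (hK.comp p hz) 0
  · exact differentiableAt_pi.1 (hK.comp p hz) 1
  · exact (differentiableAt_apply (2 : Fin 3) p).fun_mul (hη.comp p hz).cexp

lemma fderiv_hmap {η : (Fin 2 → ℂ) → ℂ} {p : Fin 3 → ℂ}
    (hK : DifferentiableAt ℂ K (zc p)) (hη : DifferentiableAt ℂ η (zc p)) (v : Fin 3 → ℂ) :
    fderiv ℂ (hmap K η) p v = ![fderiv ℂ K (zc p) (zc v) 0, fderiv ℂ K (zc p) (zc v) 1,
      Complex.exp (η (zc p)) * (v 2 + p 2 * fderiv ℂ η (zc p) (zc v))] := by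
  have hz := hasFDerivAt_zc p
  have h := (differentiableAt_hmap hK hη).hasFDerivAt
  funext i
  have hi : HasFDerivAt (fun q => hmap K η q i) _ p := hasFDerivAt_pi'.1 h i
  fin_cases i
  · have e : HasFDerivAt (fun q => K (zc q) 0) _ p :=
      hasFDerivAt_pi'.1 (hK.hasFDerivAt.comp p hz) 0
    have := congrArg (fun L : (Fin 3 → ℂ) →L[ℂ] ℂ => L v) (hi.unique e)
    simpa [zcL_apply] using this
  · have e : HasFDerivAt (fun q => K (zc q) 1) _ p :=
      hasFDerivAt_pi'.1 (hK.hasFDerivAt.comp p hz) 1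
    have := congrArg (fun L : (Fin 3 → ℂ) →L[ℂ] ℂ => L v) (hi.unique e)
    simpa [zcL_apply] using this
  · have e : HasFDerivAt (fun q => q 2 * Complex.exp (η (zc q))) _ p :=
      (hasFDerivAt_apply (2 : Fin 3) p).mul (hη.hasFDerivAt.comp p hz).cexp
    have := congrArg (fun L : (Fin 3 → ℂ) →L[ℂ] ℂ => L v) (hi.unique e)
    simp [zcL_apply] at this ⊢
    rw [this]; ring

lemma zc_single (i : Fin 3) :
    zc (Pi.single i 1) = ![(Pi.single 0 1 : Fin 2 → ℂ), Pi.single 1 1, 0] i := by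
  funext b; fin_cases i <;> fin_cases b <;> simp [zc]

lemma injective_fderiv_hmap {η : (Fin 2 → ℂ) → ℂ} {p : Fin 3 → ℂ}
    (hK : DifferentiableAt ℂ K (zc p)) (hη : DifferentiableAt ℂ η (zc p))
    (hdet : (jacK K (zc p)).det ≠ 0) : Function.Injective (fderiv ℂ (hmap K η) p) := by
  rw [injective_iff_map_eq_zero]
  intro v hv
  rw [fderiv_hmap hK hη] at hv
  have h0 := congrFun hv 0
  have h1 := congrFun hv 1
  have h2 := congrFun hv 2
  simp only [Matrix.cons_val, Pi.zero_apply] at h0 h1 h2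
  have hz : zc v = 0 := by
    refine Matrix.eq_zero_of_mulVec_eq_zero hdet ?_
    rw [← fderiv_eq_jacK]
    funext i; fin_cases i
    exacts [h0, h1]
  rw [hz, map_zero, mul_zero, add_zero] at h2
  have e0 : v 0 = 0 := congrFun hz 0
  have e1 : v 1 = 0 := congrFun hz 1
  funext i
  fin_cases i
  exacts [e0, e1, (mul_eq_zero.1 h2).resolve_left (Complex.exp_ne_zero _)]

/-- The metric pulls back to the metric of the gauged weight. -/
lemma pull_met (hW : ContDiffOn ℝ ∞ W ball2) (ha : a ∈ ball2) (hQ : IsFrame Q) (A : ℝ)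
    {p : Fin 3 → ℂ} (hp : zc p ∈ ball2) :
    pull (hmap (nm a Q) (eta fun z => W (nm a Q z))) (met A W) p
      = met A (gauged fun z => W (nm a Q z)) p := by
  set V : (Fin 2 → ℂ) → ℝ := fun z => W (nm a Q z) with hVdef
  have hV : ContDiffOn ℝ ∞ V ball2 := contDiffOn_pull hW ha hQ
  have hK : DifferentiableAt ℂ (nm a Q) (zc p) :=
    (differentiableOn_nm ha hQ).differentiableAt (isOpen_ball2.mem_nhds hp)
  have hη : DifferentiableAt ℂ (eta V) (zc p) := differentiable_eta V _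
  have hd1 : ∀ b, d1 (gauged V) b (zc p)
      = ∑ i, d1 W i (nm a Q (zc p)) * pd (nm a Q) i b (zc p) + deta V b (zc p) := fun b => by
    rw [d1_gauged hV hp]
    congr 1
    exact wd_comp_hol (f := fun x => (W x : ℂ))
      ((contDiffAt_top hW (nm_mem ha hQ hp)).differentiableAt (by simp)) hK b
  have hlev : ∀ b c, lev (gauged V) b c (zc p) = ∑ i, ∑ j, lev W i j (nm a Q (zc p))
      * pd (nm a Q) i b (zc p) * conj (pd (nm a Q) j c (zc p)) := fun b c => by
    rw [lev_gauged hV hp]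
    exact lev_comp isOpen_ball2 (differentiableOn_nm ha hQ) hp
      (contDiffAt_two hW (nm_mem ha hQ hp)) b c
  have hom : ∀ b c, omb b c (zc p) = ∑ i, ∑ j, omb i j (nm a Q (zc p))
      * pd (nm a Q) i b (zc p) * conj (pd (nm a Q) j c (zc p)) := fun b c =>
    (omb_nm ha hQ hp b c).symm
  have hx : xc (gauged V) p = xc W (hmap (nm a Q) (eta V) p) := (xc_hmap W p).symm
  set E : ℂ := Complex.exp (eta V (zc p)) with hE
  have hexp : ((Real.exp (gauged V (zc p)) : ℝ) : ℂ)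
      = ((Real.exp (W (nm a Q (zc p))) : ℝ) : ℂ) * (E * conj E) := by
    rw [Complex.mul_conj, Complex.normSq_eq_norm_sq, hE, Complex.norm_exp, ← Complex.ofReal_mul,
      ← Real.exp_nat_mul, ← Real.exp_add]
    congr 2
  have hzq : zc (hmap (nm a Q) (eta V) p) = nm a Q (zc p) := zc_hmap _ _ p
  have hq2 : hmap (nm a Q) (eta V) p 2 = p 2 * E := rfl
  ext i j
  simp only [pull, Fin.sum_univ_three, fderiv_hmap hK hη, zc_single]
  fin_cases i <;> fin_cases j <;>
    simp [met, hzq, hd1, hlev, hom, hx, ← hE, fderiv_eta hV, Fin.sum_univ_two, pd,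
      Complex.ofReal_div, hexp, ← Complex.mul_conj, hq2, -Complex.ofReal_exp] <;>
    ring

end Vale.Agent.P250.Full.Pinch
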