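import Vale.Agent.P250.Full.Pinch.Jet
import Vale.Agent.P250.Full.PinchTensorDefs

/-!
The metric and its derivatives up to order two at a normalised point `(0, w)`.
-/

namespace Vale.Agent.P250.Full.Pinch

open Complex Filter
open scoped ComplexConjugate Topology ContDiff

/-- The two Kronecker pairings. -/
noncomputable def dd (a b k l : Fin 2) : ℂ :=
  (if a = b ∧ k = l then 1 else 0) + (if a = l ∧ k = b then 1 else 0)

/-- A vector of three entries from a base vector and a fibre entry. -/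
def v3 (d : Fin 2 → ℂ) (c : ℂ) : Fin 3 → ℂ := ![d 0, d 1, c]

/-- A `3 × 3` array from its blocks. -/
def m3 (D : Fin 2 → Fin 2 → ℂ) (r c : Fin 2 → ℂ) (e : ℂ) : Fin 3 → Fin 3 → ℂ :=
  ![v3 (D 0) (r 0), v3 (D 1) (r 1), v3 c e]

@[simp] lemma v3_cast (d : Fin 2 → ℂ) (c : ℂ) (a : Fin 2) : v3 d c a.castSucc = d a := by
  fin_cases a <;> rfl

@[simp] lemma v3_two (d : Fin 2 → ℂ) (c : ℂ) : v3 d c 2 = c := rfl

@[simp] lemma m3_cast_cast (D : Fin 2 → Fin 2 → ℂ) (r c : Fin 2 → ℂ) (e : ℂ) (a b : Fin 2) :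
    m3 D r c e a.castSucc b.castSucc = D a b := by fin_cases a <;> fin_cases b <;> rfl

@[simp] lemma m3_cast_two (D : Fin 2 → Fin 2 → ℂ) (r c : Fin 2 → ℂ) (e : ℂ) (a : Fin 2) :
    m3 D r c e a.castSucc 2 = r a := by fin_cases a <;> rfl

@[simp] lemma m3_two_cast (D : Fin 2 → Fin 2 → ℂ) (r c : Fin 2 → ℂ) (e : ℂ) (b : Fin 2) :
    m3 D r c e 2 b.castSucc = c b := by fin_cases b <;> rfl

@[simp] lemma m3_two_two (D : Fin 2 → Fin 2 → ℂ) (r c : Fin 2 → ℂ) (e : ℂ) :
    m3 D r c e 2 2 = e := rfl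

lemma forall_fin3 {P : Fin 3 → Prop} (h : ∀ a : Fin 2, P a.castSucc) (h2 : P 2) : ∀ i, P i := by
  intro i; fin_cases i
  exacts [h 0, h 1, h2]

/-- The coordinate projection to the base as a linear map. -/
noncomputable def zcL : (Fin 3 → ℂ) →L[ℂ] (Fin 2 → ℂ) :=
  ContinuousLinearMap.pi ![ContinuousLinearMap.proj 0, ContinuousLinearMap.proj 1]

lemma zcL_apply (p : Fin 3 → ℂ) : zcL p = zc p := by
  funext a; fin_cases a <;> rfl

lemma fderiv_zc_comp {f : (Fin 2 → ℂ) → ℂ} {p : Fin 3 → ℂ} (hf : DifferentiableAt ℝ f (zc p))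
    (v : Fin 3 → ℂ) : fderiv ℝ (fun q => f (zc q)) p v = fderiv ℝ f (zc p) (zc v) := by
  have hz : HasFDerivAt zc (zcL.restrictScalars ℝ) p := by
    have h := (zcL.restrictScalars ℝ).hasFDerivAt (x := p)
    rwa [show ⇑(zcL.restrictScalars ℝ) = zc from funext zcL_apply] at h
  rw [show fderiv ℝ (fun q => f (zc q)) p = (fderiv ℝ f (zc p)).comp (zcL.restrictScalars ℝ) from
    (hf.hasFDerivAt.comp p hz).fderiv]
  simp [zcL_apply]

lemma wd_zc_comp {f : (Fin 2 → ℂ) → ℂ} {p : Fin 3 → ℂ} (hf : DifferentiableAt ℝ f (zc p))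
    (i : Fin 3) : wd i (fun q => f (zc q)) p = v3 (fun a => wd a f (zc p)) 0 i := by
  simp only [wd, fderiv_zc_comp hf]
  fin_cases i
  · have e : ∀ c : ℂ, zc (Pi.single (0 : Fin 3) c) = Pi.single (0 : Fin 2) c := fun c => by
      funext a; fin_cases a <;> simp [zc]
    simp [e, v3]
  · have e : ∀ c : ℂ, zc (Pi.single (1 : Fin 3) c) = Pi.single (1 : Fin 2) c := fun c => by
      funext a; fin_cases a <;> simp [zc]
    simp [e, v3]
  · have e : ∀ c : ℂ, zc (Pi.single (2 : Fin 3) c) = 0 := fun c => by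
      funext a; fin_cases a <;> simp [zc]
    simp [e, v3]

lemma wdb_zc_comp {f : (Fin 2 → ℂ) → ℂ} {p : Fin 3 → ℂ} (hf : DifferentiableAt ℝ f (zc p))
    (i : Fin 3) : wdb i (fun q => f (zc q)) p = v3 (fun a => wdb a f (zc p)) 0 i := by
  simp only [wdb, fderiv_zc_comp hf]
  fin_cases i
  · have e : ∀ c : ℂ, zc (Pi.single (0 : Fin 3) c) = Pi.single (0 : Fin 2) c := fun c => by
      funext a; fin_cases a <;> simp [zc]
    simp [e, v3]
  · have e : ∀ c : ℂ, zc (Pi.single (1 : Fin 3) c) = Pi.single (1 : Fin 2) c := fun c => by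
      funext a; fin_cases a <;> simp [zc]
    simp [e, v3]
  · have e : ∀ c : ℂ, zc (Pi.single (2 : Fin 3) c) = 0 := fun c => by
      funext a; fin_cases a <;> simp [zc]
    simp [e, v3]

lemma J2.comp_zc {f : (Fin 2 → ℂ) → ℂ} {z : Fin 2 → ℂ} {p : Fin 3 → ℂ} (hp : zc p = z) {v : ℂ}
    {d e : Fin 2 → ℂ} {D : Fin 2 → Fin 2 → ℂ} (hf : J2 f z v d e D) :
    J2 (fun q => f (zc q)) p v (v3 d 0) (v3 e 0) (m3 D 0 0 0) := by
  subst hp
  have hfd := hf.smooth.differentiableAt (by norm_num)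
  have hsm : ContDiffAt ℝ 2 zc p := by
    rw [show zc = ⇑(zcL.restrictScalars ℝ) from (funext zcL_apply).symm]
    exact (zcL.restrictScalars ℝ).contDiff.contDiffAt
  refine ⟨hf.smooth.comp p hsm, hf.val,
    fun k => by rw [wd_zc_comp hfd, funext hf.hd],
    fun l => by rw [wdb_zc_comp hfd, funext hf.hdb], ?_⟩
  intro k l
  have hev : wdb l (fun q => f (zc q)) =ᶠ[𝓝 p]
      fun q => v3 (fun a => wdb a f (zc q)) 0 l := by
    filter_upwards [hsm.continuousAt.tendsto.eventually (eventually_diffAt hf.smooth)] with q hq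
    exact wdb_zc_comp hq l
  rw [Calc.wd_congr hev]
  revert l
  refine forall_fin3 (fun b => ?_) ?_
  · intro _
    simp only [v3_cast]
    rw [wd_zc_comp (Calc.differentiableAt_wdb hf.smooth b)]
    revert k
    refine forall_fin3 (fun a => ?_) ?_
    · simp [hf.hD]
    · simp
  · intro _
    simp only [v3_two, Calc.wd_const]
    revert k
    exact forall_fin3 (fun a => by simp) (by simp)

lemma wd_wd_comm {n : ℕ} {f : (Fin n → ℂ) → ℂ} {p : Fin n → ℂ} (hf : ContDiffAt ℝ 2 f p)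
    (k l : Fin n) : wd k (wd l f) p = wd l (wd k f) p := by
  have hc : ContDiffAt ℝ 2 (fun q => conj (f q)) p :=
    Complex.conjCLE.contDiff.contDiffAt.comp p hf
  have h : DifferentiableAt ℝ (fderiv ℝ f) p :=
    (hf.fderiv_right (m := 1) (by norm_num)).differentiableAt (by norm_num)
  have hsymm := hf.isSymmSndFDerivAt (by simp)
  have hd : ∀ v : Fin n → ℂ, HasFDerivAt (fun q => fderiv ℝ f q v)
      ((fderiv ℝ (fderiv ℝ f) p).flip v) p := fun v => by
    refine (h.hasFDerivAt.clm_apply (hasFDerivAt_const v p)).congr_fderiv ?_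
    simp
  have hb : ∀ i, HasFDerivAt (wd i f)
      ((2 : ℂ)⁻¹ • ((fderiv ℝ (fderiv ℝ f) p).flip (Pi.single i 1)
        - I • (fderiv ℝ (fderiv ℝ f) p).flip (Pi.single i I))) p := fun i => by
    unfold wd
    simpa [div_eq_inv_mul] using
      ((hd (Pi.single i 1)).sub ((hd (Pi.single i I)).const_mul I)).const_mul (2 : ℂ)⁻¹
  conv_lhs => rw [wd, (hb l).fderiv]
  conv_rhs => rw [wd, (hb k).fderiv]
  simp only [smul_apply, sub_apply, ContinuousLinearMap.flip_apply, smul_eq_mul,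
    hsymm (Pi.single k 1) (Pi.single l 1), hsymm (Pi.single k 1) (Pi.single l I),
    hsymm (Pi.single k I) (Pi.single l 1), hsymm (Pi.single k I) (Pi.single l I)]
  ring

lemma contDiffAt_wd {n : ℕ} {f : (Fin n → ℂ) → ℂ} {p : Fin n → ℂ} (hf : ContDiffAt ℝ ∞ f p)
    (i : Fin n) : ContDiffAt ℝ ∞ (wd i f) p := by
  have h : ContDiffAt ℝ ∞ (fderiv ℝ f) p := hf.fderiv_right (by simp)
  unfold wd
  simp only [div_eq_mul_inv]
  fun_prop

lemma contDiffAt_wdb {n : ℕ} {f : (Fin n → ℂ) → ℂ} {p : Fin n → ℂ} (hf : ContDiffAt ℝ ∞ f p)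
    (i : Fin n) : ContDiffAt ℝ ∞ (wdb i f) p := by
  have h : ContDiffAt ℝ ∞ (fderiv ℝ f) p := hf.fderiv_right (by simp)
  unfold wdb
  simp only [div_eq_mul_inv]
  fun_prop

/-- A weight in normal form at the origin. -/
structure Normalised (W : (Fin 2 → ℂ) → ℝ) (lam : Fin 2 → ℝ) : Prop where
  smooth : ContDiffOn ℝ ∞ W ball2
  val : W 0 = 0
  first : ∀ a, d1 W a 0 = 0
  second : ∀ a k, wd k (d1 W a) 0 = 0
  diag : ∀ a b, lev W a b 0 = if a = b then (lam a : ℂ) else 0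

/-- Third derivatives of the weight. -/
noncomputable def tT (W : (Fin 2 → ℂ) → ℝ) (a b k : Fin 2) : ℂ := wd k (lev W a b) 0

/-- Fourth derivatives of the weight. -/
noncomputable def tF (W : (Fin 2 → ℂ) → ℝ) (a b k l : Fin 2) : ℂ := wd k (wdb l (lev W a b)) 0

lemma isOpen_ball2 : IsOpen ball2 := by
  have h : Continuous nsq := by unfold nsq; fun_prop
  exact isOpen_lt h continuous_const

lemma zero_mem_ball2 : (0 : Fin 2 → ℂ) ∈ ball2 := by simp [ball2, nsq]

section jets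

variable {W : (Fin 2 → ℂ) → ℝ} {lam : Fin 2 → ℝ}

lemma contDiffAt_top (h : ContDiffOn ℝ ∞ W ball2) {z : Fin 2 → ℂ} (hz : z ∈ ball2) :
    ContDiffAt ℝ ∞ (fun q => (W q : ℂ)) z :=
  Calc.contDiffAt_ofReal (h.contDiffAt (isOpen_ball2.mem_nhds hz))

lemma eventually_ball2 : ∀ᶠ z in 𝓝 (0 : Fin 2 → ℂ), z ∈ ball2 :=
  isOpen_ball2.mem_nhds zero_mem_ball2

lemma wdb_real (h : ContDiffOn ℝ ∞ W ball2) {z : Fin 2 → ℂ} (hz : z ∈ ball2) (b : Fin 2) :
    wdb b (fun q => (W q : ℂ)) z = conj (d1 W b z) := by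
  have hd := (contDiffAt_top h hz).differentiableAt (by simp)
  have e := Calc.wdb_conj hd b
  simp only [Complex.conj_ofReal] at e
  exact e

lemma lev_herm (h : ContDiffOn ℝ ∞ W ball2) {z : Fin 2 → ℂ} (hz : z ∈ ball2) (a b : Fin 2) :
    lev W a b z = conj (lev W b a z) := by
  have hc := (contDiffAt_top h hz).of_le (m := 2) (WithTop.coe_le_coe.2 le_top)
  have hev : wdb b (fun q => (W q : ℂ)) =ᶠ[𝓝 z] fun q => conj (d1 W b q) := by
    filter_upwards [isOpen_ball2.mem_nhds hz] with q hq using wdb_real h hq b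
  show wd a (wdb b fun q => (W q : ℂ)) z = conj (wd b (wdb a fun q => (W q : ℂ)) z)
  have hd : DifferentiableAt ℝ (d1 W b) z := differentiableAt_wd hc b
  rw [Calc.wd_congr hev, Calc.wd_conj hd, wd_wdb_comm hc b a]
  rfl

lemma wdb_d1 (h : ContDiffOn ℝ ∞ W ball2) {z : Fin 2 → ℂ} (hz : z ∈ ball2) (a l : Fin 2) :
    wdb l (d1 W a) z = lev W a l z :=
  (wd_wdb_comm ((contDiffAt_top h hz).of_le (WithTop.coe_le_coe.2 le_top)) a l).symm

lemma tT_symm (h : ContDiffOn ℝ ∞ W ball2) (a b k : Fin 2) : tT W a b k = tT W k b a := by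
  have key : ∀ i j, wd j (lev W i b) 0 = wdb b (wd j (d1 W i)) 0 := fun i j => by
    have hev : lev W i b =ᶠ[𝓝 0] wdb b (d1 W i) := by
      filter_upwards [eventually_ball2] with q hq using (wdb_d1 h hq i b).symm
    rw [Calc.wd_congr hev]
    exact wd_wdb_comm ((contDiffAt_wd (contDiffAt_top h zero_mem_ball2) i).of_le
      (WithTop.coe_le_coe.2 le_top)) j b
  have hev : wd k (d1 W a) =ᶠ[𝓝 0] wd a (d1 W k) := by
    filter_upwards [eventually_ball2] with q hq
    exact wd_wd_comm ((contDiffAt_top h hq).of_le (WithTop.coe_le_coe.2 le_top)) k a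
  rw [tT, tT, key, key, Calc.wdb_congr hev]

lemma j2_weight (h : Normalised W lam) :
    J2 (fun q => (W q : ℂ)) 0 0 0 0 (fun k l => lev W k l 0) := by
  refine (J2.of_smooth ((contDiffAt_top h.smooth zero_mem_ball2).of_le
    (WithTop.coe_le_coe.2 le_top))).congr_val (by simp [h.val]) h.first ?_ fun k l => rfl
  intro l
  rw [wdb_real h.smooth zero_mem_ball2, h.first, map_zero]
  rfl

lemma j2_d1 (h : Normalised W lam) (a : Fin 2) :
    J2 (d1 W a) 0 0 0 (fun l => lev W a l 0) (fun k l => tT W a l k) := by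
  refine (J2.of_smooth ((contDiffAt_wd (contDiffAt_top h.smooth zero_mem_ball2) a).of_le
    (WithTop.coe_le_coe.2 le_top))).congr_val (h.first a) (fun k => h.second a k)
    (fun l => wdb_d1 h.smooth zero_mem_ball2 a l) fun k l => ?_
  refine Calc.wd_congr ?_ k
  filter_upwards [eventually_ball2] with q hq using wdb_d1 h.smooth hq a l

lemma j2_lev (h : Normalised W lam) (a b : Fin 2) :
    J2 (lev W a b) 0 (lev W a b 0) (fun k => tT W a b k) (fun l => conj (tT W b a l))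
      (fun k l => tF W a b k l) := by
  have hs : ∀ i j, ContDiffAt ℝ 2 (lev W i j) 0 := fun i j =>
    ((contDiffAt_wd (contDiffAt_wdb (contDiffAt_top h.smooth zero_mem_ball2) j) i).of_le
      (WithTop.coe_le_coe.2 le_top))
  refine (J2.of_smooth (hs a b)).congr_val rfl (fun k => rfl) (fun l => ?_) fun k l => rfl
  have hev : lev W a b =ᶠ[𝓝 0] fun q => conj (lev W b a q) := by
    filter_upwards [eventually_ball2] with q hq using lev_herm h.smooth hq a b
  rw [Calc.wdb_congr hev, Calc.wdb_conj ((hs b a).differentiableAt (by norm_num))]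
  rfl

lemma j2_coord {n : ℕ} (i : Fin n) (p : Fin n → ℂ) :
    J2 (fun q => q i) p (p i) (fun k => if k = i then 1 else 0) 0 0 := by
  have hd : ∀ q : Fin n → ℂ, DifferentiableAt ℂ (fun q' : Fin n → ℂ => q' i) q := fun q =>
    differentiableAt_apply i q
  have hf : ∀ (q : Fin n → ℂ) (v : Fin n → ℂ), fderiv ℂ (fun q' : Fin n → ℂ => q' i) q v = v i :=
    fun q v => by
      rw [show (fun q' : Fin n → ℂ => q' i) = ⇑(ContinuousLinearMap.proj (R := ℂ) i :
        (Fin n → ℂ) →L[ℂ] ℂ) from rfl, ContinuousLinearMap.fderiv]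
      rfl
  refine (J2.of_smooth (contDiff_apply ℝ ℂ i).contDiffAt).congr_val rfl (fun k => ?_)
    (fun l => Calc.wdb_hol (hd p) l) fun k l => ?_
  · rw [Calc.wd_hol (hd p), hf, Pi.single_apply]
    simp [eq_comm]
  · rw [Calc.wd_congr (g := fun _ => 0) (Filter.Eventually.of_forall fun q =>
      Calc.wdb_hol (hd q) l), Calc.wd_const]
    rfl

end jets

/-- Jet of a power of `(1 - u)⁻¹`. -/
lemma J2.pow_inv_one_sub {n : ℕ} {u : (Fin n → ℂ) → ℝ} {p : Fin n → ℂ} {r : ℝ}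
    {d e : Fin n → ℂ} {D : Fin n → Fin n → ℂ} (hu : J2 (fun q => (u q : ℂ)) p (r : ℂ) d e D)
    (hr : r < 1) (m : ℕ) :
    J2 (fun q => ((((1 - u q)⁻¹) ^ m : ℝ) : ℂ)) p (((1 - r)⁻¹ ^ m : ℝ) : ℂ)
      (fun k => ((m * (1 - r)⁻¹ ^ (m + 1) : ℝ) : ℂ) * d k)
      (fun l => ((m * (1 - r)⁻¹ ^ (m + 1) : ℝ) : ℂ) * e l)
      (fun k l => ((m * (m + 1) * (1 - r)⁻¹ ^ (m + 2) : ℝ) : ℂ) * d k * e l
        + ((m * (1 - r)⁻¹ ^ (m + 1) : ℝ) : ℂ) * D k l) := by
  have hne : (1 : ℝ) - r ≠ 0 := (sub_pos.2 hr).ne'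
  have hd : ∀ j : ℕ, ∀ y : ℝ, y < 1 →
      HasDerivAt (fun y : ℝ => (1 - y)⁻¹ ^ j) (j * (1 - y)⁻¹ ^ (j + 1)) y := fun j y hy => by
    have hy' : (1 : ℝ) - y ≠ 0 := (sub_pos.2 hy).ne'
    refine ((((hasDerivAt_id y).const_sub 1).inv hy').pow j).congr_deriv ?_
    rcases j with _ | j
    · simp
    · simp only [Nat.add_sub_cancel, id_eq, Pi.inv_apply, inv_pow, neg_neg]
      field_simp
      ring
  refine hu.comp_real (P := fun y => (1 - y)⁻¹ ^ m) (P' := fun y => m * (1 - y)⁻¹ ^ (m + 1))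
    ((((contDiffAt_const.sub contDiffAt_id).inv hne)).pow m)
    ((eventually_lt_nhds hr).mono fun y hy => hd m y hy) ?_
  refine ((hd (m + 1) r hr).const_mul (m : ℝ)).congr_deriv ?_
  push_cast
  ring

lemma j2_nsq : J2 (fun q : Fin 2 → ℂ => (nsq q : ℂ)) 0 ((0 : ℝ) : ℂ) 0 0
    (fun k l => if k = l then 1 else 0) := by
  have h := ((j2_coord 0 (0 : Fin 2 → ℂ)).mul (j2_coord 0 0).conj).add
    ((j2_coord 1 (0 : Fin 2 → ℂ)).mul (j2_coord 1 0).conj)
  have e : (fun q : Fin 2 → ℂ => (nsq q : ℂ)) = fun q => q 0 * conj (q 0) + q 1 * conj (q 1) := by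
    funext q; simp [nsq, Complex.mul_conj]
  rw [e]
  refine h.congr_val (by simp) (fun k => by simp) (fun l => by simp) fun k l => ?_
  fin_cases k <;> fin_cases l <;> simp

lemma j2_omb (a b : Fin 2) :
    J2 (omb a b) 0 (if a = b then 1 else 0) 0 0 (fun k l => dd a b k l) := by
  have h1 := j2_nsq.pow_inv_one_sub one_pos 1
  have h2 := j2_nsq.pow_inv_one_sub one_pos 2
  have h := ((J2.const (if a = b then (1 : ℂ) else 0) (0 : Fin 2 → ℂ)).mul h1).add
    (((j2_coord a 0).conj.mul (j2_coord b 0)).mul h2)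
  have e : omb a b = fun q : Fin 2 → ℂ => (if a = b then (1 : ℂ) else 0) *
      ((((1 - nsq q)⁻¹) ^ 1 : ℝ) : ℂ) + conj (q a) * q b * ((((1 - nsq q)⁻¹) ^ 2 : ℝ) : ℂ) := by
    funext q
    simp [omb, div_eq_mul_inv]
  rw [e]
  refine h.congr_val (by simp) (fun k => by simp) (fun l => by simp) fun k l => ?_
  simp only [dd]
  fin_cases a <;> fin_cases b <;> fin_cases k <;> fin_cases l <;> simp

section metric

variable {W : (Fin 2 → ℂ) → ℝ} {lam : Fin 2 → ℝ} {p : Fin 3 → ℂ}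

/-- The diagonal Levi matrix. -/
noncomputable def dg (lam : Fin 2 → ℝ) (a b : Fin 2) : ℂ := if a = b then (lam a : ℂ) else 0

lemma dg_comm (lam : Fin 2 → ℝ) (a b : Fin 2) : dg lam a b = dg lam b a := by
  fin_cases a <;> fin_cases b <;> rfl

lemma conj_dg (lam : Fin 2 → ℝ) (a b : Fin 2) : conj (dg lam a b) = dg lam a b := by
  unfold dg; split_ifs <;> simp

lemma j2_exp (h : Normalised W lam) (hz : zc p = 0) :
    J2 (fun q => (Real.exp (W (zc q)) : ℂ)) p ((1 : ℝ) : ℂ) (v3 0 0) (v3 0 0)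
      (m3 (dg lam) 0 0 0) := by
  have hv : (0 : ℂ) = ((0 : ℝ) : ℂ) := Complex.ofReal_zero.symm
  have h0 := ((j2_weight h).comp_zc hz).congr_val hv (fun _ => rfl) (fun _ => rfl) (fun _ _ => rfl)
  have h1 := h0.comp_real (P := Real.exp) (P' := Real.exp) Real.contDiff_exp.contDiffAt
    (Eventually.of_forall Real.hasDerivAt_exp) (Real.hasDerivAt_exp 0)
  refine h1.congr_val (by simp) ?_ ?_ ?_
  · exact forall_fin3 (fun a => by simp) (by simp)
  · exact forall_fin3 (fun a => by simp) (by simp)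
  · exact forall_fin3 (fun a => forall_fin3 (fun b => by simp [dg, h.diag]) (by simp))
      (forall_fin3 (fun b => by simp) (by simp))

lemma j2_fibre (p : Fin 3 → ℂ) : J2 (fun q => q 2) p (p 2) (v3 0 1) (v3 0 0) (m3 0 0 0 0) := by
  refine (j2_coord 2 p).congr_val rfl ?_ ?_ ?_
  · exact forall_fin3 (fun a => by fin_cases a <;> simp [v3]) (by simp)
  · exact forall_fin3 (fun a => by simp) (by simp)
  · exact forall_fin3 (fun a => forall_fin3 (fun b => by simp) (by simp))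
      (forall_fin3 (fun b => by simp) (by simp))

lemma j2_fibreSq (p : Fin 3 → ℂ) :
    J2 (fun q => (normSq (q 2) : ℂ)) p ((normSq (p 2) : ℝ) : ℂ) (v3 0 (conj (p 2))) (v3 0 (p 2))
      (m3 0 0 0 1) := by
  have h := (j2_fibre p).mul (j2_fibre p).conj
  rw [show (fun q : Fin 3 → ℂ => (normSq (q 2) : ℂ)) = fun q => q 2 * conj (q 2) by
    funext q; rw [Complex.mul_conj]]
  refine h.congr_val (by rw [Complex.mul_conj]) ?_ ?_ ?_
  · exact forall_fin3 (fun a => by simp) (by simp)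
  · exact forall_fin3 (fun a => by simp) (by simp)
  · exact forall_fin3 (fun a => forall_fin3 (fun b => by simp) (by simp))
      (forall_fin3 (fun b => by simp) (by simp))

lemma j2_xc (h : Normalised W lam) (hz : zc p = 0) :
    J2 (fun q => (xc W q : ℂ)) p ((normSq (p 2) : ℝ) : ℂ) (v3 0 (conj (p 2))) (v3 0 (p 2))
      (m3 (fun k l => (normSq (p 2) : ℂ) * dg lam k l) 0 0 1) := by
  have h' := (j2_fibreSq p).mul (j2_exp h hz)
  rw [show (fun q : Fin 3 → ℂ => (xc W q : ℂ)) =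
    fun q => (normSq (q 2) : ℂ) * (Real.exp (W (zc q)) : ℂ) by funext q; simp [xc]]
  refine h'.congr_val (by simp) ?_ ?_ ?_
  · exact forall_fin3 (fun a => by simp) (by simp)
  · exact forall_fin3 (fun a => by simp) (by simp)
  · exact forall_fin3 (fun a => forall_fin3 (fun b => by simp) (by simp))
      (forall_fin3 (fun b => by simp) (by simp))

variable (h : Normalised W lam) (hz : zc p = 0) (hx : normSq (p 2) < 1)
include h hz hx

lemma j2_tau :
    let s : ℝ := (1 - normSq (p 2))⁻¹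
    J2 (fun q => ((xc W q / (1 - xc W q) : ℝ) : ℂ)) p ((normSq (p 2) * s : ℝ) : ℂ)
      (v3 0 ((s ^ 2 : ℝ) * conj (p 2))) (v3 0 ((s ^ 2 : ℝ) * p 2))
      (m3 (fun k l => ((normSq (p 2) * s ^ 2 : ℝ) : ℂ) * dg lam k l) 0 0
        ((s ^ 2 * (1 + 2 * (normSq (p 2) * s)) : ℝ))) := by
  intro s
  have hne : (1 : ℝ) - normSq (p 2) ≠ 0 := (sub_pos.2 hx).ne'
  have h' := (j2_xc h hz).mul ((j2_xc h hz).pow_inv_one_sub hx 1)
  rw [show (fun q : Fin 3 → ℂ => ((xc W q / (1 - xc W q) : ℝ) : ℂ)) =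
    fun q => (xc W q : ℂ) * ((((1 - xc W q)⁻¹) ^ 1 : ℝ) : ℂ) by
      funext q; simp [div_eq_mul_inv]]
  have key : ((1 - normSq (p 2) : ℝ) : ℂ) ≠ 0 := by exact_mod_cast hne
  refine h'.congr_val (by simp [s]) ?_ ?_ ?_
  · refine forall_fin3 (fun a => by simp) ?_
    simp only [v3_two, s]; push_cast at key ⊢; field_simp; ring
  · refine forall_fin3 (fun a => by simp) ?_
    simp only [v3_two, s]; push_cast at key ⊢; field_simp; ring
  · refine forall_fin3 (fun a => forall_fin3 (fun b => ?_) (by simp))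
      (forall_fin3 (fun b => by simp) ?_)
    · simp only [m3_cast_cast, v3_cast, Pi.zero_apply, s]; push_cast at key ⊢; field_simp; ring
    · simp only [m3_two_two, v3_two, s]
      push_cast at key ⊢
      simp only [← Complex.mul_conj] at key ⊢
      field_simp
      ring

lemma j2_q :
    let s : ℝ := (1 - normSq (p 2))⁻¹
    J2 (fun q => ((Real.exp (W (zc q)) / (1 - xc W q) ^ 2 : ℝ) : ℂ)) p ((s ^ 2 : ℝ) : ℂ)
      (v3 0 ((2 * s ^ 3 : ℝ) * conj (p 2))) (v3 0 ((2 * s ^ 3 : ℝ) * p 2))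
      (m3 (fun k l => ((s ^ 2 * (1 + 2 * (normSq (p 2) * s)) : ℝ) : ℂ) * dg lam k l) 0 0
        ((s ^ 4 * (2 + 4 * normSq (p 2)) : ℝ))) := by
  intro s
  have hne : (1 : ℝ) - normSq (p 2) ≠ 0 := (sub_pos.2 hx).ne'
  have h' := (j2_exp h hz).mul ((j2_xc h hz).pow_inv_one_sub hx 2)
  rw [show (fun q : Fin 3 → ℂ => ((Real.exp (W (zc q)) / (1 - xc W q) ^ 2 : ℝ) : ℂ)) =
    fun q => (Real.exp (W (zc q)) : ℂ) * ((((1 - xc W q)⁻¹) ^ 2 : ℝ) : ℂ) by
      funext q; simp [div_eq_mul_inv]]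
  refine h'.congr_val (by simp [s]) ?_ ?_ ?_
  · exact forall_fin3 (fun a => by simp) (by simp [s])
  · exact forall_fin3 (fun a => by simp) (by simp [s])
  · refine forall_fin3 (fun a => forall_fin3 (fun b => ?_) (by simp))
      (forall_fin3 (fun b => by simp) ?_)
    · simp only [m3_cast_cast, v3_cast, Pi.zero_apply, s]; push_cast; ring
    · simp only [m3_two_two, v3_two, s]
      have key : ((1 - normSq (p 2) : ℝ) : ℂ) ≠ 0 := by exact_mod_cast hne
      push_cast at key ⊢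
      simp only [← Complex.mul_conj] at key ⊢
      field_simp
      ring

lemma j2_met_cc (A : ℝ) (a b : Fin 2) :
    let s : ℝ := (1 - normSq (p 2))⁻¹
    let τ : ℝ := normSq (p 2) * s
    J2 (fun q => met A W q a.castSucc b.castSucc) p
      ((A : ℂ) * (if a = b then 1 else 0) + (τ : ℂ) * dg lam a b)
      (v3 (fun k => (τ : ℂ) * tT W a b k) ((s ^ 2 : ℝ) * conj (p 2) * dg lam a b))
      (v3 (fun l => (τ : ℂ) * conj (tT W b a l)) ((s ^ 2 : ℝ) * p 2 * dg lam a b))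
      (m3 (fun k l => (A : ℂ) * dd a b k l + (τ : ℂ) * tF W a b k l
          + ((normSq (p 2) * s ^ 2 : ℝ) : ℂ) * (dg lam a b * dg lam k l + dg lam a l * dg lam k b))
        (fun k => (s ^ 2 : ℝ) * p 2 * tT W a b k)
        (fun l => (s ^ 2 : ℝ) * conj (p 2) * conj (tT W b a l))
        ((s ^ 2 * (1 + 2 * τ) : ℝ) * dg lam a b)) := by
  intro s τ
  have h' := ((((j2_omb a b).comp_zc hz).const_mul (A : ℂ)).add
    ((j2_tau h hz hx).mul ((j2_lev h a b).comp_zc hz))).add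
    (((j2_q h hz hx).mul (j2_fibreSq p)).mul
      (((j2_d1 h a).comp_zc hz).mul ((j2_d1 h b).comp_zc hz).conj) )
  have e : (fun q => met A W q a.castSucc b.castSucc) = fun q : Fin 3 → ℂ =>
      (A : ℂ) * omb a b (zc q) + ((xc W q / (1 - xc W q) : ℝ) : ℂ) * lev W a b (zc q)
      + ((Real.exp (W (zc q)) / (1 - xc W q) ^ 2 : ℝ) : ℂ) * (normSq (q 2) : ℂ)
        * (d1 W a (zc q) * conj (d1 W b (zc q))) := by
    funext q; fin_cases a <;> fin_cases b <;> simp [met] <;> ring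
  rw [e]
  refine h'.congr_val (by simp [h.diag, dg, τ, s]) ?_ ?_ ?_
  · exact forall_fin3 (fun k => by simp [τ, s]) (by simp [h.diag, dg, s])
  · exact forall_fin3 (fun l => by simp [τ, s]) (by simp [h.diag, dg, s])
  · refine forall_fin3 (fun k => forall_fin3 (fun l => ?_) ?_)
      (forall_fin3 (fun l => ?_) ?_)
    · simp only [Pi.add_apply, m3_cast_cast, v3_cast, Pi.zero_apply, h.diag, ← dg.eq_1, map_zero,
        conj_dg, τ, s]
      rw [dg_comm lam k b]
      push_cast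
      ring
    · simp [s, map_zero]
    · simp [s, map_zero]
    · simp [h.diag, dg, τ, s]

lemma j2_met_ct (A : ℝ) (a : Fin 2) :
    let s : ℝ := (1 - normSq (p 2))⁻¹
    let τ : ℝ := normSq (p 2) * s
    J2 (fun q => met A W q a.castSucc 2) p 0 (v3 0 0)
      (v3 (fun l => (s ^ 2 : ℝ) * p 2 * dg lam a l) 0)
      (m3 (fun k l => (s ^ 2 : ℝ) * p 2 * tT W a l k) 0
        (fun l => (s ^ 2 * (1 + 2 * τ) : ℝ) * dg lam a l) 0) := by
  intro s τ
  have h' := ((j2_q h hz hx).mul (j2_fibre p)).mul ((j2_d1 h a).comp_zc hz)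
  have e : (fun q => met A W q a.castSucc 2) = fun q : Fin 3 → ℂ =>
      ((Real.exp (W (zc q)) / (1 - xc W q) ^ 2 : ℝ) : ℂ) * q 2 * d1 W a (zc q) := by
    funext q; fin_cases a <;> simp [met]
  rw [e]
  refine h'.congr_val (by simp) ?_ ?_ ?_
  · exact forall_fin3 (fun k => by simp) (by simp)
  · exact forall_fin3 (fun l => by simp [h.diag, dg, s]) (by simp)
  · refine forall_fin3 (fun k => forall_fin3 (fun l => by simp [s]) (by simp))
      (forall_fin3 (fun l => ?_) (by simp))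
    simp only [m3_two_cast, v3_cast, v3_two, Pi.zero_apply, h.diag, ← dg.eq_1, τ, s]
    push_cast
    simp only [← Complex.mul_conj]
    ring

lemma j2_met_tc (A : ℝ) (b : Fin 2) :
    let s : ℝ := (1 - normSq (p 2))⁻¹
    let τ : ℝ := normSq (p 2) * s
    J2 (fun q => met A W q 2 b.castSucc) p 0
      (v3 (fun k => (s ^ 2 : ℝ) * conj (p 2) * dg lam b k) 0) (v3 0 0)
      (m3 (fun k l => (s ^ 2 : ℝ) * conj (p 2) * conj (tT W b k l))
        (fun k => (s ^ 2 * (1 + 2 * τ) : ℝ) * dg lam b k) 0 0) := by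
  intro s τ
  have h' := (j2_met_ct h hz hx A b).conj
  have e : (fun q => met A W q 2 b.castSucc) = fun q => conj (met A W q b.castSucc 2) := by
    funext q; fin_cases b <;> simp [met]
  rw [e]
  refine h'.congr_val (by simp) ?_ ?_ ?_
  · exact forall_fin3 (fun k => by simp [conj_dg, s]) (by simp)
  · exact forall_fin3 (fun l => by simp) (by simp)
  · exact forall_fin3 (fun k => forall_fin3 (fun l => by simp [s])
      (by simp [conj_dg, τ, s, map_ofNat]))
      (forall_fin3 (fun l => by simp) (by simp))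

lemma j2_met_tt (A : ℝ) :
    let s : ℝ := (1 - normSq (p 2))⁻¹
    let τ : ℝ := normSq (p 2) * s
    J2 (fun q => met A W q 2 2) p ((s ^ 2 : ℝ) : ℂ)
      (v3 0 ((2 * s ^ 3 : ℝ) * conj (p 2))) (v3 0 ((2 * s ^ 3 : ℝ) * p 2))
      (m3 (fun k l => ((s ^ 2 * (1 + 2 * τ) : ℝ) : ℂ) * dg lam k l) 0 0
        ((s ^ 4 * (2 + 4 * normSq (p 2)) : ℝ))) := by
  intro s τ
  have e : (fun q => met A W q 2 2) =
      fun q : Fin 3 → ℂ => ((Real.exp (W (zc q)) / (1 - xc W q) ^ 2 : ℝ) : ℂ) := by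
    funext q; simp [met]
  rw [e]
  exact j2_q h hz hx

end metric

end Vale.Agent.P250.Full.Pinch
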