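import Vale.Agent.P250.Full.Pinch.Normal
import Vale.Agent.P250.Full.PinchTensor

/-!
Negative pinching of the example from bounded geometry.
-/

namespace Vale.Agent.P250.Full.Pinch

open Complex Filter Matrix
open scoped ComplexConjugate Topology ContDiff

/-- A weight of bounded geometry is plurisubharmonic. -/
lemma levQ_nonneg {W : (Fin 2 → ℂ) → ℝ} (hB : BoundedGeometry W) :
    ∀ a ∈ ball2, ∀ v, 0 ≤ levQ W a v := by
  obtain ⟨hW, C, hC⟩ := hB
  intro a ha v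
  have h0 := zero_mem_ball2
  obtain ⟨u, hu⟩ := ((fderiv ℂ (aut a) 0).toLinearMap.injective_iff_surjective.1
    (injective_fderiv_aut ha)) v
  replace hu : fderiv ℂ (aut a) 0 u = v := hu
  have hW' : ContDiffAt ℝ 2 W (aut a 0) := contDiffAt_two hW (by rw [aut_zero]; exact ha)
  have hd : u 0 • fderiv ℂ (aut a) 0 (Pi.single 0 1) + u 1 • fderiv ℂ (aut a) 0 (Pi.single 1 1)
      = v := by
    rw [← hu, ← map_smul, ← map_smul, ← map_add]
    congr 1
    funext i; fin_cases i <;> simp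
  have h := Geometry.levQ_chain isOpen_ball2 (Geometry.differentiableOn_aut ha) h0 hW' u
  rw [hd, aut_zero] at h
  rw [← h]
  exact (nsq_nonneg u).trans ((hC a ha).1 u)

section rotation

variable {Q : Matrix (Fin 2) (Fin 2) ℂ} {f : (Fin 2 → ℂ) → ℂ} {B : ℝ}

lemma norm_mul_le_of (hB : 0 ≤ B) {x y : ℂ} (hx : ‖x‖ ≤ B) (hy : ‖y‖ ≤ 1) : ‖x * y‖ ≤ B := by
  rw [norm_mul]
  exact (mul_le_mul hx hy (norm_nonneg _) hB).trans_eq (mul_one B)

lemma norm_wd_rot_le (hQ : IsFrame Q) (hf : DifferentiableAt ℝ f 0) (hB : 0 ≤ B)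
    (h : ∀ m, ‖wd m f 0‖ ≤ B) (k : Fin 2) : ‖wd k (fun z => f (rot Q z)) 0‖ ≤ 2 * B := by
  have hr : rot Q 0 = 0 := map_zero _
  rw [wd_comp_hol (by rw [hr]; exact hf) (rot Q).differentiableAt]
  simp only [hr, Fin.sum_univ_two, pd_rot]
  refine (norm_add_le _ _).trans ?_
  linarith [norm_mul_le_of hB (h 0) (norm_frame_le hQ 0 k),
    norm_mul_le_of hB (h 1) (norm_frame_le hQ 1 k)]

lemma norm_wd_wdb_rot_le (hQ : IsFrame Q) (hf : ContDiffAt ℝ 2 f 0) (hB : 0 ≤ B)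
    (h : ∀ m j, ‖wd m (wdb j f) 0‖ ≤ B) (k l : Fin 2) :
    ‖wd k (wdb l (fun z => f (rot Q z))) 0‖ ≤ 4 * B := by
  have hr : rot Q 0 = 0 := map_zero _
  set F : (Fin 2 → ℂ) → ℂ := fun y => wdb 0 f y * conj (Q 0 l) + wdb 1 f y * conj (Q 1 l) with hF
  have hev : wdb l (fun z => f (rot Q z)) =ᶠ[𝓝 0] fun z => F (rot Q z) := by
    have hd : ∀ᶠ z in 𝓝 0, DifferentiableAt ℝ f (rot Q z) :=
      (rot Q).continuous.continuousAt.tendsto.eventually (by rw [hr]; exact eventually_diffAt hf)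
    filter_upwards [hd] with z hz
    rw [wdb_comp_hol hz (rot Q).differentiableAt]
    simp [hF, Fin.sum_univ_two, pd_rot]
  have hd : ∀ j, DifferentiableAt ℝ (fun y => wdb j f y * conj (Q j l)) 0 := fun j =>
    (Calc.differentiableAt_wdb hf j).fun_mul (differentiableAt_const _)
  rw [Calc.wd_congr hev]
  refine (norm_wd_rot_le hQ ((hd 0).fun_add (hd 1)) (by positivity : (0 : ℝ) ≤ 2 * B)
    (fun m => ?_) k).trans_eq (by ring)
  rw [Calc.wd_add (hd 0) (hd 1), Calc.wd_mul (Calc.differentiableAt_wdb hf 0)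
    (differentiableAt_const _), Calc.wd_mul (Calc.differentiableAt_wdb hf 1)
    (differentiableAt_const _), Calc.wd_const, Calc.wd_const, mul_zero, mul_zero,
    add_zero, add_zero]
  refine (norm_add_le _ _).trans ?_
  have hc : ∀ i, ‖conj (Q i l)‖ ≤ 1 := fun i => by
    rw [RCLike.norm_conj]; exact norm_frame_le hQ i l
  linarith [norm_mul_le_of hB (h m 0) (hc 0), norm_mul_le_of hB (h m 1) (hc 1)]

end rotation

lemma norm_comb4 {c x : Fin 4 → ℂ} {B : ℝ} (hc : ∀ i, ‖c i‖ ≤ 1) (hx : ∀ i, ‖x i‖ ≤ B) :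
    ‖c 0 * x 0 + c 1 * x 1 + c 2 * x 2 + c 3 * x 3‖ ≤ 4 * B := by
  have hB : 0 ≤ B := (norm_nonneg _).trans (hx 0)
  have t : ∀ i, ‖c i * x i‖ ≤ B := fun i => by
    rw [mul_comm]; exact norm_mul_le_of hB (hx i) (hc i)
  refine (norm_add_le _ _).trans ((add_le_add ((norm_add_le _ _).trans
    (add_le_add (norm_add_le _ _) le_rfl)) le_rfl).trans ?_)
  linarith [t 0, t 1, t 2, t 3]

/-- The jets of the weight in a unitary frame. -/
lemma jet_bounds {W₀ : (Fin 2 → ℂ) → ℝ} {Q : Matrix (Fin 2) (Fin 2) ℂ} {C : ℝ}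
    (hW₀ : ContDiffOn ℝ ∞ W₀ ball2) (hQ : IsFrame Q)
    (hC : ∀ i j, ∀ k ≤ 2, ‖iteratedFDeriv ℝ k (lev W₀ i j) 0‖ ≤ C) :
    (∀ a b, ‖lev (fun z => W₀ (rot Q z)) a b 0‖ ≤ 4 * C) ∧
    (∀ a b k, ‖wd k (lev (fun z => W₀ (rot Q z)) a b) 0‖ ≤ 8 * C) ∧
    (∀ a b k l, ‖wd k (wdb l (lev (fun z => W₀ (rot Q z)) a b)) 0‖ ≤ 16 * C) := by
  have hC0 : 0 ≤ C := (norm_nonneg _).trans (hC 0 0 0 (by norm_num))
  set u : Fin 4 → (Fin 2 → ℂ) → ℂ := ![lev W₀ 0 0, lev W₀ 0 1, lev W₀ 1 0, lev W₀ 1 1] with hu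
  have hu2 : ∀ i, ContDiffAt ℝ 2 (u i) 0 ∧ ∀ k ≤ 2, ‖iteratedFDeriv ℝ k (u i) 0‖ ≤ C := by
    have hf : ∀ i j, ContDiffAt ℝ 2 (lev W₀ i j) 0 ∧
        ∀ k ≤ 2, ‖iteratedFDeriv ℝ k (lev W₀ i j) 0‖ ≤ C := fun i j =>
      ⟨(contDiffAt_wd (contDiffAt_wdb (contDiffAt_top hW₀ zero_mem_ball2) j) i).of_le
        (WithTop.coe_le_coe.2 le_top), hC i j⟩
    intro i
    fin_cases i
    exacts [hf 0 0, hf 0 1, hf 1 0, hf 1 1]
  have key : ∀ a b, ∃ c : Fin 4 → ℂ, (∀ i, ‖c i‖ ≤ 1) ∧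
      lev (fun z => W₀ (rot Q z)) a b =ᶠ[𝓝 0]
        fun z => (fun y => c 0 * u 0 y + c 1 * u 1 y + c 2 * u 2 y + c 3 * u 3 y) (rot Q z) := by
    intro a b
    refine ⟨![Q 0 a * conj (Q 0 b), Q 0 a * conj (Q 1 b), Q 1 a * conj (Q 0 b),
      Q 1 a * conj (Q 1 b)], fun i => ?_, ?_⟩
    · have h1 : ∀ r s, ‖Q r a * conj (Q s b)‖ ≤ 1 := fun r s =>
        norm_mul_le_of zero_le_one (norm_frame_le hQ r a)
          (by rw [RCLike.norm_conj]; exact norm_frame_le hQ s b)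
      fin_cases i
      exacts [h1 0 0, h1 0 1, h1 1 0, h1 1 1]
    · filter_upwards [eventually_ball2] with z hz
      rw [lev_comp isOpen_ball2 (rot Q).differentiable.differentiableOn hz
        (contDiffAt_two hW₀ (rot_mem hQ hz))]
      simp [Fin.sum_univ_two, pd_rot, hu]
      ring
  refine ⟨fun a b => ?_, fun a b k => ?_, fun a b k l => ?_⟩
  · obtain ⟨c, hc, he⟩ := key a b
    rw [he.self_of_nhds]; simp only [map_zero]
    exact norm_comb4 (x := fun i => u i 0) hc fun i => (norm_iteratedFDeriv_zero (𝕜 := ℝ) (f := u i)).symm.le.trans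
      ((hu2 i).2 0 (by norm_num))
  all_goals
    obtain ⟨c, hc, he⟩ := key a b
    have hj := ((((J2.of_smooth (hu2 0).1).const_mul (c 0)).add
      ((J2.of_smooth (hu2 1).1).const_mul (c 1))).add
      ((J2.of_smooth (hu2 2).1).const_mul (c 2))).add ((J2.of_smooth (hu2 3).1).const_mul (c 3))
  · rw [Calc.wd_congr he]
    refine (norm_wd_rot_le hQ (hj.smooth.differentiableAt (by norm_num))
      (by positivity : (0 : ℝ) ≤ 4 * C) (fun m => ?_) k).trans_eq (by ring)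
    rw [hj.hd m]
    exact norm_comb4 (x := fun i => wd m (u i) 0) hc fun i =>
      (norm_wd_le _ _ _).trans ((hu2 i).2 1 (by norm_num))
  · have he' : wdb l (lev (fun z => W₀ (rot Q z)) a b) =ᶠ[𝓝 0] wdb l
        (fun z => (fun y => c 0 * u 0 y + c 1 * u 1 y + c 2 * u 2 y + c 3 * u 3 y) (rot Q z)) := by
      filter_upwards [he.eventuallyEq_nhds] with z hz using Calc.wdb_congr hz l
    rw [Calc.wd_congr he']
    refine (norm_wd_wdb_rot_le hQ hj.smooth (by positivity : (0 : ℝ) ≤ 4 * C)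
      (fun m j => ?_) k l).trans_eq (by ring)
    rw [hj.hD m j]
    exact norm_comb4 (x := fun i => wd m (wdb j (u i)) 0) hc fun i =>
      (norm_wd_wdb_le (hu2 i).1 m j).trans ((hu2 i).2 2 le_rfl)

/-- Pinching, from naturality and the Kähler curvature formula. -/
theorem pinch_of (hK : KahlerCurvStmt) (hP : PullStmt) : PinchStmt := by
  intro W hB
  have hpsh := levQ_nonneg hB
  obtain ⟨hW, C, hC⟩ := hB
  set M : ℝ := max 1 (16 * C)
  obtain ⟨A₀, hA₀, hcore⟩ := core M M (le_max_left _ _) (zero_le_one.trans (le_max_left _ _))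
  refine ⟨A₀, hA₀, fun A hA => ?_⟩
  obtain ⟨ca, cb, hca, hcab, hbound⟩ := hcore A hA
  refine ⟨ca, cb, hca, hcab, fun p hp X Y => ?_⟩
  obtain ⟨hopen, -, -, hKm⟩ := kahler A W (lt_of_lt_of_le one_pos (hA₀.trans hA)) hW hpsh
  set a := zc p
  have ha : a ∈ ball2 := hp.1
  have h0 := zero_mem_ball2
  set W₀ : (Fin 2 → ℂ) → ℝ := fun z => W (aut a z) with hW₀d
  have hW₀ : ContDiffOn ℝ ∞ W₀ ball2 :=
    hW.comp ((contDiffOn_infty.2 fun k => P274.Full.PatchAux.contDiffOn_of_holo isOpen_ball2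
      (Geometry.differentiableOn_aut ha) k).restrict_scalars ℝ) fun _ h => aut_mem ha h
  obtain ⟨hlow, hjet⟩ := hC a ha
  obtain ⟨Q, lam, hQ, hdiag⟩ := exists_frame (fun r s => lev W₀ r s 0)
    fun r s => (lev_herm hW₀ h0 r s).symm
  obtain ⟨hb0, hb1, hb2⟩ := jet_bounds hW₀ hQ hjet
  set V : (Fin 2 → ℂ) → ℝ := fun z => W (nm a Q z) with hVd
  have hV : ContDiffOn ℝ ∞ V ball2 := contDiffOn_pull hW ha hQ
  have hV0 : V = fun z => W₀ (rot Q z) := rfl
  have hlev0 : ∀ i j, lev V i j 0 = if i = j then (lam i : ℂ) else 0 := fun i j => by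
    rw [hV0, lev_comp isOpen_ball2 (rot Q).differentiable.differentiableOn h0
      (contDiffAt_two hW₀ (rot_mem hQ h0))]
    simp only [pd_rot, map_zero]
    exact hdiag i j
  have hlam : ∀ i, 1 ≤ lam i ∧ lam i ≤ M := fun i => by
    constructor
    · have h := hlow (fun r => Q r i)
      have hn : nsq (fun r => Q r i) = 1 := by
        have h1 := congrArg Complex.re (hQ i i)
        simpa [Fin.sum_univ_two, Complex.mul_conj, nsq] using h1
      have hq : levQ W₀ 0 (fun r => Q r i) = lam i := by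
        rw [levQ, hdiag i i, if_pos rfl, Complex.ofReal_re]
      rw [hn] at h
      exact h.trans hq.le
    · have h := hb0 i i
      rw [← hV0, hlev0, if_pos rfl, Complex.norm_real, Real.norm_eq_abs] at h
      have hC0 : 0 ≤ C := (norm_nonneg _).trans (hjet 0 0 0 (by norm_num))
      linarith [le_abs_self (lam i), le_max_right (1 : ℝ) (16 * C)]
  have hnorm := normalised_gauged hV hlev0
  have hev : ∀ i j, lev (gauged V) i j =ᶠ[𝓝 0] lev V i j := fun i j => by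
    filter_upwards [eventually_ball2] with q hq using lev_gauged hV hq i j
  have hC0 : 0 ≤ C := (norm_nonneg _).trans (hjet 0 0 0 (by norm_num))
  have hT : ∀ i j k, ‖tT (gauged V) i j k‖ ≤ M := fun i j k => by
    rw [tT, Calc.wd_congr (hev i j)]
    exact (hb1 i j k).trans ((by linarith : 8 * C ≤ 16 * C).trans (le_max_right _ _))
  have hF : ∀ i j k l, ‖tF (gauged V) i j k l‖ ≤ M := fun i j k l => by
    have e : wdb l (lev (gauged V) i j) =ᶠ[𝓝 0] wdb l (lev V i j) := by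
      filter_upwards [(hev i j).eventuallyEq_nhds] with q hq using Calc.wdb_congr hq l
    rw [tF, Calc.wd_congr e]
    exact (hb2 i j k l).trans (le_max_right _ _)
  set H := hmap (nm a Q) (eta V) with hH
  set p₀ : Fin 3 → ℂ := ![0, 0, p 2 * Complex.exp (-eta V 0)] with hp₀
  have hz₀ : zc p₀ = 0 := by funext i; fin_cases i <;> simp [zc, hp₀]
  have hHp : H p₀ = p := by
    funext i
    simp only [hH, hmap, hz₀, nm_zero]
    fin_cases i
    · simp [a, zc]
    · simp [a, zc]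
    · simp [hp₀, mul_assoc, ← Complex.exp_add]
  have hx₀ : normSq (p₀ 2) < 1 := by
    have h := hp.2
    rw [← hHp, hH, hVd, xc_hmap, ← hVd] at h
    rw [xc, hz₀, hnorm.val, Real.exp_zero, mul_one] at h
    exact h
  set G := gauged V with hG
  have hGsm := hnorm.smooth
  have hGpsh : ∀ q ∈ ball2, ∀ v, 0 ≤ levQ G q v := fun q hq v => by
    have e : levQ G q v = levQ V q v := by simp only [levQ, hG, lev_gauged hV hq]
    rw [e, hVd, Geometry.levQ_chain isOpen_ball2 (differentiableOn_nm ha hQ) hq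
      (contDiffAt_two hW (nm_mem ha hQ hq))]
    exact hpsh _ (nm_mem ha hQ hq) _
  obtain ⟨hoG, -, -, hKG⟩ := kahler A G (lt_of_lt_of_le one_pos (hA₀.trans hA)) hGsm hGpsh
  have hp₀m : p₀ ∈ dom G := by
    refine ⟨by rw [hz₀]; exact h0, ?_⟩
    rw [xc, hz₀, hnorm.val, Real.exp_zero, mul_one]
    exact hx₀
  set S : Set (Fin 3 → ℂ) := {q | q ∈ dom G ∧ (jacK (nm a Q) (zc q)).det ≠ 0}
  have hSo : IsOpen S := by
    have hc : ContinuousOn (fun q => (jacK (nm a Q) (zc q)).det) (dom G) := by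
      have hj : ∀ i j, ContinuousOn (fun q => pd (nm a Q) i j (zc q)) (dom G) := fun i j q hq =>
        ((differentiableAt_pd isOpen_ball2 (differentiableOn_nm ha hQ) hq.1 i j).comp q
          (hasFDerivAt_zc q).differentiableAt).continuousAt.continuousWithinAt
      simp only [Matrix.det_fin_two, jacK, Matrix.of_apply]
      exact ((hj 0 0).mul (hj 1 1)).sub ((hj 0 1).mul (hj 1 0))
    exact hc.isOpen_inter_preimage hoG isOpen_ne
  have hpS : p₀ ∈ S := ⟨hp₀m, by rw [hz₀]; exact det_nm_zero ha hQ⟩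
  have hdK : ∀ q ∈ S, DifferentiableAt ℂ (nm a Q) (zc q) := fun q hq =>
    (differentiableOn_nm ha hQ).differentiableAt (isOpen_ball2.mem_nhds hq.1.1)
  have hinj : ∀ q ∈ S, Function.Injective (fderiv ℂ H q) := fun q hq =>
    injective_fderiv_hmap (hdK q hq) (differentiable_eta V _) hq.2
  have hdH : DifferentiableOn ℂ H S := fun q hq =>
    (differentiableAt_hmap (hdK q hq) (differentiable_eta V _)).differentiableWithinAt
  have hmaps : Set.MapsTo H S (dom W) := fun q hq => by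
    refine ⟨?_, ?_⟩
    · rw [hH, zc_hmap]; exact nm_mem ha hQ hq.1.1
    · rw [hH, hVd, xc_hmap, ← hVd]; exact hq.1.2
  have hsmH : ContDiffOn ℝ ∞ H S :=
    (contDiffOn_infty.2 fun k =>
      P274.Full.PatchAux.contDiffOn_of_holo hSo hdH k).restrict_scalars ℝ
  obtain ⟨X', hX'⟩ :=
    ((fderiv ℂ H p₀).toLinearMap.injective_iff_surjective.1 (hinj p₀ hpS)) X
  obtain ⟨Y', hY'⟩ :=
    ((fderiv ℂ H p₀).toLinearMap.injective_iff_surjective.1 (hinj p₀ hpS)) Y
  replace hX' : fderiv ℂ H p₀ X' = X := hX'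
  replace hY' : fderiv ℂ H p₀ Y' = Y := hY'
  have hpull : ∀ q ∈ S, pull H (met A W) q = met A G q := fun q hq =>
    pull_met hW ha hQ A hq.1.1
  have hcurv : curv (met A W) p X Y Y X = curv (met A G) p₀ X' Y' Y' X' := by
    rw [← curv_congr (Filter.eventuallyEq_of_mem (hSo.mem_nhds hpS) hpull) X' Y' Y' X',
      hP (dom W) S (met A W) H hopen hSo hKm hdH hsmH hmaps hinj p₀ hpS X' Y', hHp, hX', hY']
  have hrm : ∀ U U', rMet (met A W) p (fderiv ℂ H p₀ U) (fderiv ℂ H p₀ U')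
      = rMet (met A G) p₀ U U' := fun U U' => by
    have hU : ∀ U : Fin 3 → ℂ, fderiv ℂ H p₀ U
        = ∑ i, U i • fderiv ℂ H p₀ (Pi.single i 1) := fun U => by
      rw [← map_smul_sum]
    rw [rMet, rMet, ← hpull p₀ hpS, ← hHp, hU U, hU U']
    simp only [pull, hHp, Fin.sum_univ_three, Pi.add_apply, Pi.smul_apply, smul_eq_mul, map_add,
      map_mul]
    congr 1
    ring
  have harea : area (met A W) p X Y = area (met A G) p₀ X' Y' := by
    simp only [area, ← hX', ← hY', hrm]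
  rw [hcurv, harea, curv_point hnorm hz₀ hx₀ hK (lt_of_lt_of_le one_pos (hA₀.trans hA))
    (fun i => zero_le_one.trans (hlam i).1) hoG hKG hp₀m, area_point hnorm hz₀ hx₀]
  exact hbound lam _ _ (p₀ 2) hlam hT hF hx₀ X' Y'
where
  map_smul_sum {f : (Fin 3 → ℂ) →L[ℂ] (Fin 3 → ℂ)} {U : Fin 3 → ℂ} :
      f U = ∑ i, U i • f (Pi.single i 1) := by
    conv_lhs => rw [show U = ∑ i, U i • (Pi.single i 1 : Fin 3 → ℂ) from by
      funext j; fin_cases j <;> simp [Fin.sum_univ_three]]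
    simp only [map_sum, map_smul]

end Vale.Agent.P250.Full.Pinch
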