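import Vale.Agent.P250.Full.Pinch.Chain
import Vale.Agent.P250.Full.Pinch.Aut

/-!
Unitary frames, and bounds for Wirtinger derivatives by iterated derivatives.
-/

namespace Vale.Agent.P250.Full.Pinch

open Complex Filter Matrix
open scoped ComplexConjugate Topology ContDiff

/-- The linear map of a matrix. -/
noncomputable def rot (Q : Matrix (Fin 2) (Fin 2) ℂ) : (Fin 2 → ℂ) →L[ℂ] (Fin 2 → ℂ) :=
  Q.mulVecLin.toContinuousLinearMap

lemma rot_apply (Q : Matrix (Fin 2) (Fin 2) ℂ) (v : Fin 2 → ℂ) (i : Fin 2) :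
    rot Q v i = Q i 0 * v 0 + Q i 1 * v 1 := by
  simp [rot, Matrix.mulVec, dotProduct, Fin.sum_univ_two]

lemma pd_rot (Q : Matrix (Fin 2) (Fin 2) ℂ) (i j : Fin 2) (z : Fin 2 → ℂ) :
    pd (rot Q) i j z = Q i j := by
  rw [pd, ContinuousLinearMap.fderiv, rot_apply]
  fin_cases j <;> simp

/-- The columns of `Q` are orthonormal. -/
def IsFrame (Q : Matrix (Fin 2) (Fin 2) ℂ) : Prop :=
  ∀ a b, ∑ i, Q i a * conj (Q i b) = if a = b then 1 else 0

lemma nsq_rot {Q : Matrix (Fin 2) (Fin 2) ℂ} (hQ : IsFrame Q) (v : Fin 2 → ℂ) :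
    nsq (rot Q v) = nsq v := by
  have h00 := hQ 0 0
  have h01 := hQ 0 1
  have h10 := hQ 1 0
  have h11 := hQ 1 1
  simp only [Fin.sum_univ_two, if_true, Fin.zero_eq_one_iff, OfNat.ofNat_ne_one, if_false,
    one_ne_zero] at h00 h01 h10 h11
  have h : ((nsq (rot Q v) : ℝ) : ℂ) = (nsq v : ℂ) := by
    simp only [nsq, Complex.ofReal_add, ← Complex.mul_conj, rot_apply, map_add, map_mul]
    linear_combination (v 0 * conj (v 0)) * h00 + (v 0 * conj (v 1)) * h01
      + (v 1 * conj (v 0)) * h10 + (v 1 * conj (v 1)) * h11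
  exact_mod_cast h

lemma norm_frame_le {Q : Matrix (Fin 2) (Fin 2) ℂ} (hQ : IsFrame Q) (i a : Fin 2) :
    ‖Q i a‖ ≤ 1 := by
  have h := congrArg Complex.re (hQ a a)
  simp only [if_true, Complex.one_re, Complex.re_sum, Complex.mul_conj, Complex.ofReal_re] at h
  have hle : normSq (Q i a) ≤ 1 := h ▸
    Finset.single_le_sum (f := fun r => normSq (Q r a)) (fun r _ => normSq_nonneg _)
      (Finset.mem_univ i)
  rw [Complex.normSq_eq_norm_sq] at hle
  nlinarith [norm_nonneg (Q i a)]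

/-- A Hermitian form is diagonal in some unitary frame. -/
lemma exists_frame (H : Fin 2 → Fin 2 → ℂ) (hH : ∀ r s, conj (H s r) = H r s) :
    ∃ (Q : Matrix (Fin 2) (Fin 2) ℂ) (lam : Fin 2 → ℝ), IsFrame Q ∧
      ∀ a b, ∑ r, ∑ s, H r s * Q r a * conj (Q s b) = if a = b then (lam a : ℂ) else 0 := by
  have hA : (Matrix.of H).IsHermitian := Matrix.IsHermitian.ext fun r s => hH r s
  set U : Matrix (Fin 2) (Fin 2) ℂ := hA.eigenvectorUnitary.1 with hU
  have h1 : star U * U = 1 := Unitary.coe_star_mul_self hA.eigenvectorUnitary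
  have h2 : star U * Matrix.of H * U = Matrix.diagonal (RCLike.ofReal ∘ hA.eigenvalues) := by
    have h := hA.conjStarAlgAut_star_eigenvectorUnitary
    rwa [Unitary.conjStarAlgAut_star_apply] at h
  refine ⟨fun i j => conj (U i j), hA.eigenvalues, fun a b => ?_, fun a b => ?_⟩
  · have h := congrFun (congrFun h1 a) b
    simp only [Matrix.mul_apply, Matrix.star_apply, RCLike.star_def, Matrix.one_apply] at h
    simpa using h
  · have h := congrFun (congrFun h2 a) b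
    simp only [Matrix.mul_apply, Matrix.star_apply, RCLike.star_def, Matrix.diagonal_apply,
      Matrix.of_apply, Fin.sum_univ_two, Function.comp_apply] at h
    simp only [Fin.sum_univ_two, Complex.conj_conj]
    refine (Eq.trans ?_ h)
    ring

/-! ### Bounds -/

variable {n : ℕ}

lemma norm_single_le {c : ℂ} (hc : ‖c‖ ≤ 1) (i : Fin n) :
    ‖(Pi.single i c : Fin n → ℂ)‖ ≤ 1 := by
  rwa [Pi.norm_single]

lemma norm_wd_le (f : (Fin n → ℂ) → ℂ) (p : Fin n → ℂ) (i : Fin n) :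
    ‖wd i f p‖ ≤ ‖iteratedFDeriv ℝ 1 f p‖ := by
  rw [norm_iteratedFDeriv_one]
  have h : ∀ c : ℂ, ‖c‖ ≤ 1 → ‖fderiv ℝ f p (Pi.single i c)‖ ≤ ‖fderiv ℝ f p‖ := fun c hc =>
    ((fderiv ℝ f p).le_opNorm_of_le (norm_single_le hc i)).trans (by rw [mul_one])
  rw [wd, norm_div, RCLike.norm_ofNat]
  refine (div_le_iff₀ two_pos).2 ((norm_sub_le _ _).trans ?_)
  rw [norm_mul, Complex.norm_I, one_mul]
  linarith [h 1 (by simp), h I (by simp)]

lemma norm_wd_wdb_le {f : (Fin n → ℂ) → ℂ} {p : Fin n → ℂ} (hf : ContDiffAt ℝ 2 f p)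
    (k l : Fin n) : ‖wd k (wdb l f) p‖ ≤ ‖iteratedFDeriv ℝ 2 f p‖ := by
  have hd : DifferentiableAt ℝ (fderiv ℝ f) p :=
    (hf.fderiv_right (m := 1) (by norm_num)).differentiableAt (by norm_num)
  have h2 : ‖iteratedFDeriv ℝ 2 f p‖ = ‖fderiv ℝ (fderiv ℝ f) p‖ := by
    rw [show (2 : ℕ) = 1 + 1 from rfl, ← norm_iteratedFDeriv_fderiv, norm_iteratedFDeriv_one]
  have hv : ∀ v : Fin n → ℂ, HasFDerivAt (fun q => fderiv ℝ f q v)
      ((fderiv ℝ (fderiv ℝ f) p).flip v) p := fun v => by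
    refine (hd.hasFDerivAt.clm_apply (hasFDerivAt_const v p)).congr_fderiv ?_
    simp
  have ha : HasFDerivAt (wdb l f)
      ((2 : ℂ)⁻¹ • ((fderiv ℝ (fderiv ℝ f) p).flip (Pi.single l 1)
        + I • (fderiv ℝ (fderiv ℝ f) p).flip (Pi.single l I))) p := by
    unfold wdb
    simpa [div_eq_inv_mul] using
      ((hv (Pi.single l 1)).add ((hv (Pi.single l I)).const_mul I)).const_mul (2 : ℂ)⁻¹
  have hle : ∀ c d : ℂ, ‖c‖ ≤ 1 → ‖d‖ ≤ 1 →
      ‖fderiv ℝ (fderiv ℝ f) p (Pi.single k c) (Pi.single l d)‖ ≤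
        ‖fderiv ℝ (fderiv ℝ f) p‖ := fun c d hc hd' => by
    refine ((ContinuousLinearMap.le_opNorm₂ _ _ _)).trans ?_
    calc _ ≤ ‖fderiv ℝ (fderiv ℝ f) p‖ * 1 * 1 := by
          gcongr
          exacts [norm_single_le hc k, norm_single_le hd' l]
      _ = _ := by ring
  rw [wd, ha.fderiv, h2]
  simp only [_root_.smul_apply, _root_.add_apply, ContinuousLinearMap.flip_apply, smul_eq_mul]
  set a := fderiv ℝ (fderiv ℝ f) p (Pi.single k 1) (Pi.single l 1) with hav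
  set b := fderiv ℝ (fderiv ℝ f) p (Pi.single k 1) (Pi.single l I) with hbv
  set c := fderiv ℝ (fderiv ℝ f) p (Pi.single k I) (Pi.single l 1) with hcv
  set d := fderiv ℝ (fderiv ℝ f) p (Pi.single k I) (Pi.single l I) with hdv
  rw [show ((2 : ℂ)⁻¹ * (a + I * b) - I * ((2 : ℂ)⁻¹ * (c + I * d))) / 2
    = (a + I * b - I * c - I * (I * d)) / 4 by ring, norm_div, RCLike.norm_ofNat]
  refine (div_le_iff₀ (by norm_num)).2 ?_
  refine ((norm_sub_le _ _).trans (add_le_add ((norm_sub_le _ _).trans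
    (add_le_add (norm_add_le _ _) le_rfl)) le_rfl)).trans ?_
  simp only [norm_mul, Complex.norm_I, one_mul]
  have h1 : ‖(1 : ℂ)‖ ≤ 1 := norm_one.le
  have hI : ‖I‖ ≤ 1 := Complex.norm_I.le
  linarith [hle 1 1 h1 h1, hle 1 I h1 hI, hle I 1 hI h1, hle I I hI hI]

end Vale.Agent.P250.Full.Pinch
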